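import Mathlib
import Vale.Agent.P043.Space.Pair
import Vale.Agent.P043.Space.Weyl

/-!
Helper for P043: the fibre-mask condition and the shared notions of its proof.
-/

namespace Vale.Agent.P043.Space.Masks

open Finset
open Rows (IsI)

variable {d m : ℕ}

/-- The fibre of `f` in `F` modulo a set of vectors. -/
noncomputable def fib (F : Finset (Fin d → ℤ)) (Λ : Set (Fin d → ℤ)) (f : Fin d → ℤ) :
    Finset (Fin d → ℤ) :=
  by classical exact F.filter fun g => g - f ∈ Λ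

theorem mem_fib {F : Finset (Fin d → ℤ)} {Λ : Set (Fin d → ℤ)} {f g : Fin d → ℤ} :
    g ∈ fib F Λ f ↔ g ∈ F ∧ g - f ∈ Λ := by
  classical
  simp [fib]

/-- The common kernel of two forms. -/
def ker2 (a b : Fin d → ℤ) : Set (Fin d → ℤ) := {w | dot a w = 0 ∧ dot b w = 0}

/-- For every map to `ℤ²` of rank two and every character whose order involves only the primes
of the size, some fibre mask does not vanish at the character. -/
def MaskCond (F : Finset (Fin d → ℤ)) : Prop :=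
  ∀ a b : Fin d → ℤ, Indep a b → ∀ (M : ℕ) (r : Fin d → ℤ), 0 < M →
    (∀ p : ℕ, p.Prime → p ∣ M → p ∣ F.card) → ∃ f ∈ F, ∑ g ∈ fib F (ker2 a b) f, ee ((dot r g : ℝ) / M) ≠ 0

/-- The hyperplane of `c` contains the common kernel of `a` and `b`. -/
def InPlane (a b c : Fin d → ℤ) : Prop := ∀ w, dot a w = 0 → dot b w = 0 → dot c w = 0

/-- Finite patterns recur with bounded gaps along every lattice `L • ℤ^d`. -/
def Recurs (A : Set (Fin d → ℤ)) : Prop :=
  ∀ L : ℤ, 0 < L → ∀ (x : Fin d → ℤ) (W : Finset (Fin d → ℤ)), ∃ R : ℤ, ∀ y, ∃ t,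
    (∀ k, |t k| ≤ R) ∧ ∀ w ∈ W, (x + L • (y + t) + w ∈ A ↔ x + w ∈ A)

/-- A periodic function plus pieces constant along hyperplanes with independent normals. -/
structure Dec (A : Set (Fin d → ℤ)) (V : Fin m → Fin d → ℤ) (L : ℤ)
    (P : (Fin d → ℤ) → ℝ) (u : Fin m → (Fin d → ℤ) → ℝ) : Prop where
  ne : ∀ i, V i ≠ 0
  indep : ∀ i j, i ≠ j → Indep (V i) (V j)
  pos : 0 < L
  periodic : ∀ w, L • w ∈ per P
  inv : ∀ i w, dot (V i) w = 0 → L • w ∈ per (u i)
  eq : ∀ x, ind A x = P x + ∑ i, u i x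
  bdd : ∀ i, Bdd (u i)

theorem Dec.mono {A : Set (Fin d → ℤ)} {V : Fin m → Fin d → ℤ} {L : ℤ}
    {P : (Fin d → ℤ) → ℝ} {u : Fin m → (Fin d → ℤ) → ℝ} (h : Dec A V L P u) {K : ℤ}
    (hK : 0 < K) : Dec A V (L * K) P u :=
  ⟨h.ne, h.indep, mul_pos h.pos hK, fun w => by rw [mul_smul]; exact h.periodic _,
    fun i w hw => by rw [mul_smul]; exact h.inv i _ (by rw [dot_smul, hw, mul_zero]),
    h.eq, h.bdd⟩

/-- Integral variation on the class of `x` modulo `L`. -/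
def IntOn (φ : (Fin d → ℤ) → ℝ) (x : Fin d → ℤ) (L : ℤ) : Prop :=
  ∀ y, IsI (φ (x + L • y) - φ x)

/-- Constant on the class of `x` modulo `L`. -/
def ConstOn (φ : (Fin d → ℤ) → ℝ) (x : Fin d → ℤ) (L : ℤ) : Prop :=
  ∀ y, φ (x + L • y) = φ x

/-- Some iterated difference is a constant irrational modulo one. -/
def IrrSeq (g : ℤ → ℝ) : Prop :=
  ∃ (r : ℕ) (c : ℝ), (∀ q : ℤ, q ≠ 0 → ¬IsI (q * c)) ∧
    ∀ n, IsI ((fwdDiff 1)^[r + 1] g n - c)

/-- Irrational on every progression of the class, in every direction across the hyperplane. -/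
def IrrOn (v : Fin d → ℤ) (φ : (Fin d → ℤ) → ℝ) (x : Fin d → ℤ) (L : ℤ) : Prop :=
  ∀ τ, 0 < dot v τ → ∀ M : ℤ, 0 < M → ∀ z,
    IrrSeq fun n => φ (x + L • z + (L * M) • n • τ)

end Vale.Agent.P043.Space.Masks
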