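import Mathlib
import Vale.Agent.P043.Space.Masks.Defs

/-!
Helper for P043: the mean of a decomposed tiling over the common kernel of two normals.
-/

namespace Vale.Agent.P043.Space.Masks

open Finset Filter Topology

variable {d m : ℕ}

theorem bdd_of_eqn {F : Finset (Fin d → ℤ)} {φ : (Fin d → ℤ) → ℝ} (h : Eqn F φ) : Bdd φ :=
  ⟨1, fun x => abs_le.2 ⟨by linarith [(h.1 x).1], (h.1 x).2⟩⟩

theorem bdd_shift {φ : (Fin d → ℤ) → ℝ} (h : Bdd φ) (v : Fin d → ℤ) : Bdd fun y => φ (y - v) :=
  h.elim fun B hB => ⟨B, fun _ => hB _⟩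

theorem meanL_shift {φ : (Fin d → ℤ) → ℝ} (h : Bdd φ) (v : Fin d → ℤ) :
    ∀ l : List (Fin d → ℤ), meanL l (fun y => φ (y - v)) = fun x => meanL l φ (x - v)
  | [] => rfl
  | u :: l => by
    funext x
    show mean u (meanL l _) x = mean u (meanL l φ) (x - v)
    rw [meanL_shift h v l]
    refine tendsto_nhds_unique (tendsto_mean (bdd_shift (h.meanL l) v) u x)
      ((tendsto_mean (h.meanL l) u (x - v)).congr fun N => ?_)
    simp only [avg]
    congr 1
    exact sum_congr rfl fun n _ => by rw [sub_add_eq_add_sub]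

/-- A function constant on the orbit of the list is its own mean there. -/
theorem meanL_eq_of_const {φ : (Fin d → ℤ) → ℝ} (h : Bdd φ) {a : ℝ} :
    ∀ (l : List (Fin d → ℤ)) (x : Fin d → ℤ),
      (∀ w ∈ AddSubgroup.closure {v : Fin d → ℤ | v ∈ l}, φ (x + w) = a) → meanL l φ x = a
  | [], x, hx => by
    show φ x = a
    simpa using hx 0 (zero_mem _)
  | u :: l, x, hx => by
    refine tendsto_nhds_unique (tendsto_mean (h.meanL l) u x) (tendsto_const_nhds.congr' ?_)
    filter_upwards [ult_le (eventually_gt_atTop 0)] with N hN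
    have hn : ∀ n : ℕ, meanL l φ (x + (n : ℤ) • u) = a := fun n =>
      meanL_eq_of_const h l _ fun w hw => by
        rw [add_assoc]
        refine hx _ (add_mem (zsmul_mem (AddSubgroup.subset_closure
          (show u ∈ {v : Fin d → ℤ | v ∈ u :: l} from List.mem_cons_self)) _)
          (AddSubgroup.closure_mono (h' := show {v : Fin d → ℤ | v ∈ l} ⊆ {v | v ∈ u :: l} from fun v hv => List.mem_cons_of_mem u hv) hw))
    simp only [avg, hn, sum_const, card_range, nsmul_eq_mul]
    field_simp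

theorem eqn_meanL {F : Finset (Fin d → ℤ)} {φ : (Fin d → ℤ) → ℝ} (hφ : Eqn F φ)
    (l : List (Fin d → ℤ)) : Eqn F (meanL l φ) := by
  have hB := bdd_of_eqn hφ
  refine ⟨fun x => ⟨?_, ?_⟩, fun n x => ?_⟩
  · have := meanL_mono (bdd_const 0) hB (fun y => (hφ.1 y).1) l x
    rwa [meanL_const] at this
  · have := meanL_mono hB (bdd_const 1) (fun y => (hφ.1 y).2) l x
    rwa [meanL_const] at this
  · have e : (fun y => ∑ g ∈ F, φ (y - (1 + step F * (n : ℤ)) • g)) = fun _ => 1 :=
      funext fun y => hφ.2 n y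
    have h1 := congrFun (meanL_sum (s := F) (φ := fun g y => φ (y - (1 + step F * (n : ℤ)) • g))
      (fun g _ => bdd_shift hB _) l) x
    rw [e, meanL_const] at h1
    exact (sum_congr rfl fun g _ => (congrFun (meanL_shift hB _ l) x).symm).trans h1.symm

/-- Generators of the common kernel of two forms, up to a factor. -/
theorem exists_gens {a b : Fin d → ℤ} (hab : Indep a b) :
    ∃ (c : ℤ) (gen : Fin d → Fin d → ℤ), 0 < c ∧ (∀ k, gen k ∈ ker2 a b) ∧
      ∀ y ∈ ker2 a b, c • y = ∑ k, y k • gen k := by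
  obtain ⟨c, s, t, hc, has, hbs, hat, hbt⟩ := hab.dual
  have hsingle : ∀ (a : Fin d → ℤ) k, dot a (Pi.single k 1) = a k := fun a k => by
    simp [dot_apply, Pi.single_apply]
  refine ⟨c, fun k => c • Pi.single k 1 - a k • s - b k • t, hc, fun k => ⟨?_, ?_⟩, ?_⟩
  · simp only [map_sub, dot_smul, hsingle, has, hat]; ring
  · simp only [map_sub, dot_smul, hsingle, hbs, hbt]; ring
  · rintro y ⟨ha, hb⟩
    funext l
    simp only [Finset.sum_apply, Pi.smul_apply, Pi.sub_apply, smul_eq_mul, mul_sub,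
      sum_sub_distrib, Pi.single_apply, mul_ite, mul_one, mul_zero, sum_ite_eq, mem_univ, if_true]
    rw [show ∑ k, y k * (a k * s l) = dot a y * s l by
        rw [dot_apply, sum_mul]; exact sum_congr rfl fun k _ => by ring,
      show ∑ k, y k * (b k * t l) = dot b y * t l by
        rw [dot_apply, sum_mul]; exact sum_congr rfl fun k _ => by ring, ha, hb]
    ring

/-- A translate which may be moved inside the class. -/
theorem smul_mem_per_of_ker2 {a b : Fin d → ℤ} {φ : (Fin d → ℤ) → ℝ} {L c : ℤ}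
    {gen : Fin d → Fin d → ℤ} (hexp : ∀ y ∈ ker2 a b, c • y = ∑ k, y k • gen k)
    (h : ∀ k, L • gen k ∈ per φ) {y : Fin d → ℤ} (hy : y ∈ ker2 a b) : (L * c) • y ∈ per φ := by
  rw [mul_smul, hexp y hy, smul_sum]
  exact sum_mem fun k _ => by rw [smul_comm]; exact zsmul_mem (h k) _

/-- The mean over the common kernel: on a finer class it varies as the pieces of that plane do. -/
theorem exists_planeMean {A : Set (Fin d → ℤ)} {V : Fin m → Fin d → ℤ} {L : ℤ}
    {P : (Fin d → ℤ) → ℝ} {u : Fin m → (Fin d → ℤ) → ℝ} (h : Dec A V L P u) {i j : Fin m}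
    (hij : i ≠ j) [DecidablePred fun l => InPlane (V i) (V j) (V l)] :
    ∃ (K : ℤ) (G : (Fin d → ℤ) → ℝ), 0 < K ∧ (∀ x, G x ∈ Set.Icc (0 : ℝ) 1) ∧
      (∀ x y, G (x + (L * K) • y) - G x = ∑ l ∈ univ.filter (fun l => InPlane (V i) (V j) (V l)),
        (u l (x + (L * K) • y) - u l x)) ∧
      (∀ v v', (∀ y, ind A (y - v) + ind A (y - v') ≤ 1) → ∀ x, G (x - v) + G (x - v') ≤ 1) ∧
      ∀ x, (∀ w ∈ ker2 (V i) (V j), ind A (x + L • w) = ind A x) → G x = ind A x := by
  obtain ⟨c, gen, hc, hgen, hexp⟩ := exists_gens (h.indep i j hij)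
  set ws : List (Fin d → ℤ) := List.ofFn fun k => L • gen k with hws
  have hin : ∀ l, InPlane (V i) (V j) (V l) → ∀ w ∈ ws, w ∈ per (u l) := by
    intro l hl w hw
    obtain ⟨k, rfl⟩ := List.mem_ofFn.1 hw
    exact h.inv l _ (hl _ (hgen k).1 (hgen k).2)
  have hout : ∀ l, ∃ e : ℤ, 0 < e ∧ (¬InPlane (V i) (V j) (V l) →
      ∀ y, (L * e) • y ∈ per (meanL ws (u l))) := by
    intro l
    by_cases hl : InPlane (V i) (V j) (V l)
    · exact ⟨1, one_pos, fun h' => absurd hl h'⟩
    simp only [InPlane, not_forall] at hl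
    obtain ⟨w, hw1, hw2, hw3⟩ := hl
    obtain ⟨k, hk⟩ : ∃ k, dot (V l) (gen k) ≠ 0 := by
      by_contra hk
      push Not at hk
      have h1 := congrArg (dot (V l)) (hexp w ⟨hw1, hw2⟩)
      rw [map_sum, dot_smul] at h1
      simp only [dot_smul, hk, mul_zero, sum_const_zero, mul_eq_zero] at h1
      exact hw3 (h1.resolve_left hc.ne')
    refine ⟨L * |dot (V l) (gen k)|, mul_pos h.pos (abs_pos.2 hk), fun _ y => ?_⟩
    have h1 := mem_per_of_hyperplane (N := L) (fun y hy => per_le_meanL (h.bdd l) ws (h.inv l y hy))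
      (z := gen k) (mem_per_meanL (h.bdd l) (List.mem_ofFn.2 ⟨k, rfl⟩)) y
    rcases abs_choice (dot (V l) (gen k)) with e | e <;> rw [e]
    · rwa [← mul_assoc]
    · rw [← mul_assoc, mul_neg, neg_smul]; exact neg_mem h1
  choose e he heper using hout
  set K := ∏ l, e l with hK
  have hK0 : 0 < K := prod_pos fun l _ => he l
  have hA := bdd_ind A
  refine ⟨K, meanL ws (ind A), hK0, fun x => ⟨?_, ?_⟩, fun x y => ?_, fun v v' hvv x => ?_,
    fun x hx => meanL_eq_of_const hA ws x fun w hw => ?_⟩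
  · have := meanL_mono (bdd_const 0) hA (fun y => (ind_mem_Icc A y).1) ws x
    rwa [meanL_const] at this
  · have := meanL_mono hA (bdd_const 1) (fun y => (ind_mem_Icc A y).2) ws x
    rwa [meanL_const] at this
  · have hPB : Bdd P := by
      have := (bdd_ind A).sub (Bdd.sum (s := univ) fun i _ => h.bdd i)
      convert this using 2
      rw [h.eq]; ring
    rw [show ind A = fun z => P z + ∑ l, u l z from funext h.eq,
      meanL_add hPB (Bdd.sum fun l _ => h.bdd l), meanL_sum fun l _ => h.bdd l]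
    have hP : (L * K) • y ∈ per (meanL ws P) := by
      refine per_le_meanL hPB ws ?_
      rw [mul_smul]; exact h.periodic _
    show meanL ws P (x + (L * K) • y) + ∑ l, meanL ws (u l) (x + (L * K) • y) -
      (meanL ws P x + ∑ l, meanL ws (u l) x) = _
    rw [hP x, add_sub_add_left_eq_sub, ← sum_sub_distrib, sum_filter]
    refine sum_congr rfl fun l _ => ?_
    split_ifs with hl
    · rw [meanL_eq_self (h.bdd l) (hin l hl)]
    · obtain ⟨r, hr⟩ : e l ∣ K := dvd_prod_of_mem _ (mem_univ l)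
      rw [hr, ← mul_assoc, mul_smul, heper l hl (r • y) x, sub_self]
  · have h2 := meanL_mono ((bdd_shift hA v).add (bdd_shift hA v')) (bdd_const 1) hvv ws x
    rwa [meanL_const, meanL_add (bdd_shift hA v) (bdd_shift hA v'), meanL_shift hA,
      meanL_shift hA] at h2
  · have hwk : ∃ z ∈ ker2 (V i) (V j), w = L • z := by
      induction hw using AddSubgroup.closure_induction with
      | mem v hv => obtain ⟨k, rfl⟩ := List.mem_ofFn.1 hv; exact ⟨_, hgen k, rfl⟩
      | zero => exact ⟨0, ⟨map_zero _, map_zero _⟩, (smul_zero L).symm⟩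
      | add a b _ _ ha hb =>
        obtain ⟨p, hp, rfl⟩ := ha
        obtain ⟨q, hq, rfl⟩ := hb
        exact ⟨p + q, ⟨by rw [map_add, hp.1, hq.1, add_zero], by rw [map_add, hp.2, hq.2, add_zero]⟩,
          (smul_add L p q).symm⟩
      | neg a _ ha =>
        obtain ⟨p, hp, rfl⟩ := ha
        exact ⟨-p, ⟨by rw [map_neg, hp.1, neg_zero], by rw [map_neg, hp.2, neg_zero]⟩, (smul_neg L p).symm⟩
    obtain ⟨z, hz, rfl⟩ := hwk
    exact hx z hz

end Vale.Agent.P043.Space.Masks
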