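import Mathlib
import Vale.Agent.P043.Space.Masks.PlaneMean

/-!
Helper for P043: averaging the dilated equations with a step which keeps one fibre.
-/

namespace Vale.Agent.P043.Space.Masks

open Finset Filter Topology

variable {d : ℕ}

/-- The translates along a fibre are one minus functions with one further period each. -/
theorem exists_average_fib {F : Finset (Fin d → ℤ)} {φ : (Fin d → ℤ) → ℝ} (hφ : Eqn F φ)
    (Λ : Set (Fin d → ℤ)) {M : ℕ} (hM : 0 < M) (hΛ : ∀ w ∈ Λ, (M : ℤ) • w ∈ per φ)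
    (f : Fin d → ℤ) :
    ∃ ψ : (Fin d → ℤ) → (Fin d → ℤ) → ℝ, (∀ G, Eqn G φ → ∀ g, Eqn G (ψ g)) ∧
      (∀ g, (step F * M) • (g - f) ∈ per (ψ g)) ∧ (∀ g, per φ ≤ per (ψ g)) ∧
      ∀ x, ∑ g ∈ fib F Λ f, φ (x - (g - f)) = 1 - ∑ g ∈ F \ fib F Λ f, ψ g x := by
  classical
  have hB := bdd_of_eqn hφ
  let u : (Fin d → ℤ) → Fin d → ℤ := fun g => (-(step F * (M : ℤ))) • (g - f)
  let ψ : (Fin d → ℤ) → (Fin d → ℤ) → ℝ := fun g => mean (u g) fun y => φ (y - (g - f))
  have hlim : ∀ g x, Tendsto (avg (u g) (fun y => φ (y - (g - f))) x) (ult : Filter ℕ)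
      (𝓝 (ψ g x)) := fun g x => tendsto_mean (bdd_shift hB _) _ _
  have hterm : ∀ g x (n : ℕ), φ (x + (n : ℤ) • u g - (g - f))
      = φ (x + (1 + step F * ((M * n : ℕ) : ℤ)) • f - (1 + step F * ((M * n : ℕ) : ℤ)) • g) := by
    intro g x n
    congr 1
    funext k
    simp [u]
    ring
  have hev : ∀ᶠ N : ℕ in (ult : Filter ℕ), (N : ℝ) ≠ 0 := by
    filter_upwards [ult_le (eventually_gt_atTop 0)] with N hN
    exact Nat.cast_ne_zero.2 (Nat.pos_iff_ne_zero.1 hN)
  have hsum : ∀ x, ∑ g ∈ F, ψ g x = 1 := fun x => by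
    refine tendsto_nhds_unique (tendsto_finsetSum _ fun g _ => hlim g x)
      (tendsto_const_nhds.congr' ?_)
    filter_upwards [hev] with N hN
    simp only [avg, ← sum_div]
    rw [sum_comm, sum_congr rfl (g := fun _ => (1 : ℝ))]
    · simp [hN]
    · intro n _
      simp only [hterm]
      exact hφ.2 _ _
  have hkeep : ∀ g, g - f ∈ Λ → ∀ x, ψ g x = φ (x - (g - f)) := by
    intro g hg x
    have hu : u g ∈ per φ := by
      rw [show u g = (-step F) • ((M : ℤ) • (g - f)) by simp only [u, smul_smul]; ring_nf]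
      exact zsmul_mem (hΛ _ hg) _
    show mean (u g) _ x = _
    rw [mean_eq_self (bdd_shift hB _) fun y => by
      show φ (y + u g - (g - f)) = φ (y - (g - f))
      rw [add_sub_right_comm, hu]]
  refine ⟨ψ, fun G hG g => ⟨fun x => ?_, fun n x => ?_⟩, fun g => ?_, fun g v hv => ?_, fun x => ?_⟩
  · refine isClosed_Icc.mem_of_tendsto (hlim g x) (Eventually.of_forall fun N => ?_)
    exact ⟨div_nonneg (sum_nonneg fun n _ => (hφ.1 _).1) (Nat.cast_nonneg N),
      div_le_one_of_le₀ ((sum_le_sum fun n _ => (hφ.1 _).2).trans (by simp)) (Nat.cast_nonneg N)⟩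
  · refine tendsto_nhds_unique (tendsto_finsetSum _ fun k _ => hlim g _)
      (tendsto_const_nhds.congr' ?_)
    filter_upwards [hev] with N hN
    simp only [avg, ← sum_div]
    rw [sum_comm, sum_congr rfl (g := fun _ => (1 : ℝ))]
    · simp [hN]
    · intro l _
      rw [← hG.2 n (x + (l : ℤ) • u g - (g - f))]
      refine sum_congr rfl fun k _ => congrArg φ ?_
      abel
  · rw [show (step F * (M : ℤ)) • (g - f) = -u g by simp only [u, neg_smul, neg_neg]]
    exact neg_mem (self_mem_per_mean (bdd_shift hB _) _)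
  · refine per_le_mean (bdd_shift hB _) (u g) fun y => ?_
    show φ (y + v - (g - f)) = φ (y - (g - f))
    rw [add_sub_right_comm, hv]
  · have hsub : fib F Λ f ⊆ F := fun g hg => (mem_fib.1 hg).1
    rw [eq_sub_iff_add_eq, ← hsum x, ← sum_sdiff hsub, add_comm]
    congr 1
    exact sum_congr rfl fun g hg => (hkeep g (mem_fib.1 hg).2 x).symm

end Vale.Agent.P043.Space.Masks
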