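import Mathlib
import Vale.Agent.P043.Space.Masks.Defs
import Vale.Agent.P043.Space.Diff

/-!
Helper for P043: on every class of a fine lattice a piece has integral variation or is irrational,
and irrational sequences meet a level modulo one with density zero.
-/

namespace Vale.Agent.P043.Space.Masks

open Finset Filter Topology
open Rows (IsI Per1)

variable {d m : ℕ}

theorem isI_int_mul (k : ℤ) {t : ℝ} (h : IsI t) : IsI (k * t) := by
  obtain ⟨a, rfl⟩ := h
  exact ⟨k * a, by push_cast; rfl⟩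

/-- Constant differences along a progression. -/
theorem sub_diff {r : ℕ} {g : ℤ → ℝ} {c : ℝ} (h : ∀ n, IsI ((fwdDiff 1)^[r] g n - c)) (a : ℤ)
    (q : ℕ) (n : ℤ) :
    IsI ((fwdDiff 1)^[r] (fun k => g (a + q * k)) n - (q : ℝ) ^ r * c) := by
  rw [subseq_iter]
  exact diff_step g c q r h _

theorem IrrSeq.sub {g : ℤ → ℝ} (h : IrrSeq g) (a : ℤ) {q : ℕ} (hq : 0 < q) :
    IrrSeq fun k => g (a + q * k) := by
  obtain ⟨r, c, hc, hd⟩ := h
  refine ⟨r, (q : ℝ) ^ (r + 1) * c, fun k hk => ?_, sub_diff hd a q⟩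
  rw [← mul_assoc, show (k : ℝ) * (q : ℝ) ^ (r + 1) = ((k * (q : ℤ) ^ (r + 1) : ℤ) : ℝ) by
    push_cast; rfl]
  exact hc _ (mul_ne_zero hk (pow_ne_zero _ (by omega)))

theorem IrrSeq.not_int {g : ℤ → ℝ} (h : IrrSeq g) {D : ℤ} (hD : D ≠ 0) :
    ¬∀ n, IsI ((D : ℝ) * g n - D * g 0) := by
  obtain ⟨r, c, hc, hd⟩ := h
  intro hi
  have key : ∀ s n, IsI ((fwdDiff 1)^[s + 1] ((D : ℝ) • g) n) := by
    intro s
    induction s with
    | zero =>
      intro n
      convert (hi (n + 1)).sub (hi n) using 1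
      simp [fwdDiff]
    | succ s ih =>
      intro n
      rw [Function.iterate_succ_apply']
      exact (ih (n + 1)).sub (ih n)
  refine hc D hD ?_
  convert (key r 0).sub (isI_int_mul D (hd 0)) using 1
  rw [fwdDiff_iter_const_smul]
  simp only [Pi.smul_apply, smul_eq_mul]
  ring

/-- Irrational sequences have range more than one half. -/
theorem IrrSeq.big {g : ℤ → ℝ} (h : IrrSeq g) : ∃ n k, 1 / 2 < g n - g k := by
  by_contra hsmall
  simp only [not_exists, not_lt] at hsmall
  obtain ⟨r, c, hc, hd⟩ := h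
  obtain ⟨R, hR, hper⟩ := per1_of_small_range (r := r + 2) (fun n => by
    rw [Function.iterate_succ_apply']
    convert (hd (n + 1)).sub (hd n) using 1
    simp [fwdDiff]) hsmall
  refine ((show IrrSeq g from ⟨r, c, hc, hd⟩).sub 0 hR).not_int one_ne_zero fun n => ?_
  simpa [mul_comm] using Per1.mul hper n 0

/-- On every class of some modulus a sequence with integral differences has integral variation or
is irrational on every progression. -/
theorem dichotomy_seq : ∀ (r : ℕ) {g : ℤ → ℝ}, (∀ n, IsI ((fwdDiff 1)^[r] g n)) →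
    ∃ q : ℕ, 0 < q ∧ ∀ a : ℤ, (∀ k : ℤ, IsI (g (a + q * k) - g a)) ∨
      ∀ (b : ℤ) (s : ℕ), 0 < s → IrrSeq fun k => g (a + q * b + q * s * k) := by
  intro r
  induction r with
  | zero => exact fun h => ⟨1, one_pos, fun a => Or.inl fun k => (h _).sub (h a)⟩
  | succ r ih =>
    intro g h
    set c := (fwdDiff 1)^[r] g 0 with hc
    have hcn : ∀ n, IsI ((fwdDiff 1)^[r] g n - c) := fun n => by
      simpa [hc] using drift (G := (fwdDiff 1)^[r] g) (c := 0)
        (fun k => by simpa only [Function.iterate_succ_apply' _ r, fwdDiff, sub_zero] using h k) n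
    rcases r with _ | r
    · exact ⟨1, one_pos, fun a => Or.inl fun k => by simpa using (hcn (a + k)).sub (hcn a)⟩
    by_cases hrat : ∃ q : ℕ, 0 < q ∧ IsI (q * c)
    · obtain ⟨q, hq, hqc⟩ := hrat
      have hsub : ∀ a n : ℤ, IsI ((fwdDiff 1)^[r + 1] (fun k => g (a + q * k)) n) := fun a n => by
        convert (sub_diff hcn a q n).add (isI_int_mul ((q : ℤ) ^ r) hqc) using 1
        push_cast
        ring
      choose Q hQ hQd using fun a : ℤ => ih (hsub a)
      refine ⟨q * ∏ i ∈ range q, Q i, Nat.mul_pos hq (prod_pos fun i _ => hQ _), fun a => ?_⟩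
      set a₀ : ℕ := (a % (q : ℤ)).toNat with ha₀
      have h0 := Int.emod_nonneg a (show (q : ℤ) ≠ 0 by omega)
      have ha : a₀ ∈ range q := mem_range.2 (by
        have := Int.emod_lt_of_pos a (show (0 : ℤ) < q by omega); omega)
      obtain ⟨k', hk'⟩ := dvd_prod_of_mem (fun i : ℕ => Q i) ha
      have e : (a₀ : ℤ) + q * (a / (q : ℤ)) = a := by
        rw [ha₀, Int.toNat_of_nonneg h0]; exact Int.emod_add_mul_ediv a q
      have hk0 : 0 < k' := by
        rcases Nat.eq_zero_or_pos k' with rfl | h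
        · have := prod_pos (s := range q) (f := fun i : ℕ => Q i) fun i _ => hQ _
          simp only [mul_zero] at hk'; omega
        · exact h
      rcases hQd a₀ (a / (q : ℤ)) with h1 | h1
      · refine Or.inl fun k => ?_
        convert h1 ((k' : ℤ) * k) using 2
        · refine congrArg g ?_
          push_cast [hk']; linear_combination -e
        · exact congrArg g e.symm
      · refine Or.inr fun b s hs => ?_
        convert h1 ((k' : ℤ) * b) (k' * s) (Nat.mul_pos hk0 hs) using 1
        funext k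
        refine congrArg g ?_
        push_cast [hk']; linear_combination -e
    · refine ⟨1, one_pos, fun a => Or.inr fun b s hs => ?_⟩
      have hirr : IrrSeq g := ⟨r, c, fun q hq hI => hrat ⟨q.natAbs, Int.natAbs_pos.2 hq, by
        rcases Int.natAbs_eq q with e | e <;> rw [e] at hI
        · simpa using hI
        · simpa using hI.neg⟩, hcn⟩
      simpa using hirr.sub (a + b) hs

variable {A : Set (Fin d → ℤ)} {V : Fin m → Fin d → ℤ} {L : ℤ} {P : (Fin d → ℤ) → ℝ}
  {u : Fin m → (Fin d → ℤ) → ℝ}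

/-- On every class of a fine lattice each piece has integral variation or is irrational. -/
theorem exists_dichotomy (h : Dec A V L P u) :
    ∃ K : ℤ, 0 < K ∧ ∀ i x, IntOn (u i) x (L * K) ∨ IrrOn (V i) (u i) x (L * K) := by
  classical
  choose τ hτ hsteps using fun i =>
    exists_steps i (h.ne i) fun l hl => (h.indep l i hl).exists_perp
  let e : Fin m → ℤ := fun i => dot (V i) (τ i)
  have hline : ∀ i x (w : Fin d → ℤ),
      u i (x + (L * e i) • w) = u i (x + dot (V i) w • L • τ i) := by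
    intro i x w
    have key : ∀ A B : ℤ, x + (L * A) • w = x + B • L • τ i + L • (A • w - B • τ i) := by
      intro A B; rw [smul_sub, smul_smul, smul_smul, smul_smul, mul_comm B]; abel
    rw [key (e i) (dot (V i) w)]
    exact h.inv i _ (by rw [map_sub, dot_smul, dot_smul]; ring) _
  have hseq : ∀ i x, ∃ q : ℕ, 0 < q ∧ ∀ a : ℤ,
      (∀ k : ℤ, IsI (u i (x + (a + q * k) • L • τ i) - u i (x + a • L • τ i))) ∨
      ∀ (b : ℤ) (s : ℕ), 0 < s →
        IrrSeq fun k => u i (x + (a + q * b + q * s * k) • L • τ i) := by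
    intro i x
    obtain ⟨steps, hτs, hcong, hkill⟩ := hsteps i L
    refine dichotomy_seq steps.length (g := fun n => u i (x + n • L • τ i)) fun n => ?_
    rw [← Dl_line (f := u i) (fun g hg => by
      obtain ⟨w, hw, e⟩ := hcong g hg; rw [e]; exact h.inv i w hw) x n]
    have hall : ∀ y, Dl steps (ind A) y = Dl steps (u i) y := fun y => by
      rw [show ind A = fun z => P z + ∑ l, u l z from funext h.eq, Dl_add,
        Dl_eq_zero hτs (h.periodic _), zero_add]
      refine Dl_others i (fun l hl => ?_) y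
      obtain ⟨g, hg, w, hw, e⟩ := hkill l hl
      exact ⟨g, hg, e ▸ h.inv l w hw⟩
    rw [← hall]
    refine Dl_int steps (fun y => ?_) _
    by_cases hy : y ∈ A
    · exact ⟨1, by simp [ind_of_mem hy]⟩
    · exact ⟨0, by simp [ind_of_notMem hy]⟩
  choose q hq hqd using hseq
  set D : ℤ := L * ∏ i, e i with hD
  have hD0 : 0 < D := mul_pos h.pos (prod_pos fun i _ => hτ i)
  set B : Finset (Fin d → ℤ) := Fintype.piFinset fun _ => Finset.Ico 0 D with hBdef
  set Pr : ℤ := ∏ i, ∏ r ∈ B, (q i r : ℤ) with hPr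
  have hPr0 : 0 < Pr := prod_pos fun i _ => prod_pos fun r _ => by exact_mod_cast hq i r
  refine ⟨(∏ i, e i) * Pr, mul_pos (prod_pos fun i _ => hτ i) hPr0, fun i x => ?_⟩
  set r : Fin d → ℤ := fun k => x k % D with hr
  set Q : Fin d → ℤ := fun k => x k / D with hQ
  have hx : x = r + D • Q := by funext k; simp [r, Q, Int.emod_add_mul_ediv]
  have hrB : r ∈ B := by
    simp [hBdef, r, Int.emod_nonneg _ hD0.ne', Int.emod_lt_of_pos _ hD0]
  obtain ⟨ce, hce⟩ : e i ∣ ∏ l, e l := dvd_prod_of_mem _ (mem_univ i)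
  obtain ⟨cr, hcr⟩ : (q i r : ℤ) ∣ Pr :=
    (dvd_prod_of_mem (fun r => (q i r : ℤ)) hrB).trans
      (dvd_prod_of_mem (fun l => ∏ r ∈ B, (q l r : ℤ)) (mem_univ i))
  have hce0 : 0 < ce :=
    pos_of_mul_pos_right (hce ▸ prod_pos fun i _ => hτ i) (hτ i).le
  have hcr0 : 0 < cr := pos_of_mul_pos_right (hcr ▸ hPr0) (by positivity)
  set a : ℤ := ce * dot (V i) Q with ha
  have hval : ∀ w, u i (x + (L * ((∏ l, e l) * Pr)) • w) =
      u i (r + (a + (q i r : ℤ) * (cr * ce * dot (V i) w)) • L • τ i) := by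
    intro w
    have : x + (L * ((∏ l, e l) * Pr)) • w = r + (L * e i) • (ce • (Q + Pr • w)) := by
      rw [hx, hD, hce, smul_smul, smul_add, smul_smul, add_assoc]; ring_nf
    rw [this, hline, dot_smul, map_add, dot_smul, ha, hcr]
    ring_nf
  have hval0 : u i x = u i (r + a • L • τ i) := by simpa using hval 0
  rcases hqd i r a with h1 | h1
  · refine Or.inl fun w => ?_
    rw [hval, hval0]
    exact h1 _
  · refine Or.inr fun t ht M hM z => ?_
    have hs : 0 < cr * ce * M * dot (V i) t := by positivity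
    convert h1 (cr * ce * dot (V i) z) (cr * ce * M * dot (V i) t).toNat
      (by rwa [Int.lt_toNat]) using 1
    funext n
    rw [show x + (L * ((∏ l, e l) * Pr)) • z + (L * ((∏ l, e l) * Pr) * M) • n • t =
      x + (L * ((∏ l, e l) * Pr)) • (z + (M * n) • t) by
        rw [smul_add, smul_smul, smul_smul, ← add_assoc]; ring_nf,
      hval, map_add, dot_smul, Int.toNat_of_nonneg hs.le]
    ring_nf

theorem IrrOn.mono {v : Fin d → ℤ} {φ : (Fin d → ℤ) → ℝ} {x : Fin d → ℤ} (h : IrrOn v φ x L)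
    {M : ℤ} (hM : 0 < M) (z : Fin d → ℤ) : IrrOn v φ (x + L • z) (L * M) := by
  intro τ hτ M' hM' z'
  convert h τ hτ (M * M') (mul_pos hM hM') (z + M • z') using 1
  funext n
  refine congrArg φ ?_
  rw [smul_add, smul_smul L M, ← mul_assoc L M M', ← add_assoc]

theorem IrrOn.seq {v : Fin d → ℤ} {φ : (Fin d → ℤ) → ℝ} {x : Fin d → ℤ} (hv : v ≠ 0)
    (h : IrrOn v φ x L) : IrrSeq fun n => φ (x + L • n • v) := by
  simpa using h v (dot_self_pos hv) 1 one_pos 0

/-- No nonzero integer multiple of an irrational piece has integral variation. -/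
theorem IrrOn.not_int {v : Fin d → ℤ} (hv : v ≠ 0) {φ : (Fin d → ℤ) → ℝ} {x : Fin d → ℤ}
    (h : IrrOn v φ x L) {D : ℤ} (hD : D ≠ 0) :
    ¬IntOn (fun y => (D : ℝ) * φ y) x L := fun hi =>
  (h.seq hv).not_int hD fun n => by simpa using hi (n • v)

/-- An irrational piece has range more than one half. -/
theorem IrrOn.range (h : Dec A V L P u) {K : ℤ} {i : Fin m} {x : Fin d → ℤ}
    (hi : IrrOn (V i) (u i) x (L * K)) :
    ∃ y y', 1 / 2 < u i (x + (L * K) • y) - u i (x + (L * K) • y') :=
  let ⟨_, _, hnk⟩ := (hi.seq (h.ne i)).big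
  ⟨_, _, hnk⟩

/-- An irrational sequence meets a level modulo one with density zero. -/
theorem IrrSeq.count {g : ℤ → ℝ} (h : IrrSeq g) (α : ℝ) {ε : ℝ} (hε : 0 < ε) :
    ∀ᶠ N : ℕ in atTop,
      (Set.ncard {n : ℕ | n < N ∧ IsI (g n - α)} : ℝ) ≤ ε * N := by
  classical
  obtain ⟨r, c, hc, hd⟩ := h
  obtain ⟨H, hH⟩ := exists_nat_gt (2 / ε)
  have hH0 : (0 : ℝ) < H := lt_of_le_of_lt (by positivity) hH
  have hm : ∀ k : ℤ, k ≠ 0 → Tendsto (fun N : ℕ =>
      (∑ n ∈ range N, Real.cos (2 * Real.pi * (k * (g n - α)))) / N) atTop (𝓝 0) := by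
    intro k hk
    have m1 : MeanZero ((k : ℝ) • g) := meanZero_of_diff r _ (k * c) (fun q hq => by
        rw [← mul_assoc, ← Int.cast_mul]; exact hc _ (mul_ne_zero hq hk)) fun n => by
      rw [fwdDiff_iter_const_smul]
      convert isI_int_mul k (hd n) using 1
      simp; ring
    have e := (Complex.continuous_re.tendsto _).comp (Tendsto.const_mul (ee (-(k * α))) m1)
    simp only [mul_zero, Complex.zero_re] at e
    refine e.congr fun N => ?_
    have hre : ∀ x : ℝ, (ee x).re = Real.cos (2 * Real.pi * x) := fun x =>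
      Complex.exp_ofReal_mul_I_re _
    simp only [Function.comp_apply, mul_div_assoc', mul_sum, ← ee_add, Complex.div_natCast_re,
      Complex.re_sum, hre, Pi.smul_apply, smul_eq_mul, neg_add_eq_sub, mul_sub]
  set f : ℕ → ℝ := fun n => ∑ i ∈ range H, ∑ j ∈ range H,
    Real.cos (2 * Real.pi * ((((i : ℤ) - j : ℤ) : ℝ) * (g n - α))) with hf
  have f0 : ∀ n, 0 ≤ f n := fun n => by
    have : f n = (∑ i ∈ range H, Real.cos (2 * Real.pi * (g n - α) * i)) ^ 2 +
        (∑ i ∈ range H, Real.sin (2 * Real.pi * (g n - α) * i)) ^ 2 := by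
      rw [hf, sq, sq, sum_mul_sum, sum_mul_sum, ← sum_add_distrib]
      refine sum_congr rfl fun i _ => ?_
      rw [← sum_add_distrib]
      refine sum_congr rfl fun j _ => ?_
      rw [← Real.cos_sub]; push_cast; ring_nf
    rw [this]; positivity
  have f1 : ∀ n : ℕ, IsI (g n - α) → f n = (H : ℝ) ^ 2 := fun n ⟨z, hz⟩ => by
    have : ∀ k : ℤ, Real.cos (2 * Real.pi * (k * (z : ℝ))) = 1 := fun k => by
      rw [← Int.cast_mul, mul_comm, Real.cos_int_mul_two_pi]
    simp only [hf, hz, this, sum_const, card_range, nsmul_eq_mul]; ring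
  have ht : Tendsto (fun N : ℕ => (∑ n ∈ range N, f n) / N) atTop (𝓝 (H : ℝ)) := by
    have h2 : Tendsto (fun N : ℕ => ∑ i ∈ range H, ∑ j ∈ range H,
        (∑ n ∈ range N, Real.cos (2 * Real.pi * ((((i : ℤ) - j : ℤ) : ℝ) * (g n - α)))) / N)
        atTop (𝓝 (∑ i ∈ range H, ∑ j ∈ range H, if i = j then 1 else 0)) := by
      refine tendsto_finsetSum _ fun i _ => tendsto_finsetSum _ fun j _ => ?_
      rcases eq_or_ne i j with rfl | hij
      · refine tendsto_const_nhds.congr' ((eventually_gt_atTop 0).mono fun N hN => ?_)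
        have : (N : ℝ) ≠ 0 := by positivity
        simp [this]
      · simpa [hij] using hm ((i : ℤ) - j) (sub_ne_zero.2 (by exact_mod_cast hij))
    simp only [Finset.sum_ite_eq, Finset.mem_range] at h2
    rw [sum_congr rfl (g := fun _ => (1 : ℝ)) fun i hi => if_pos (mem_range.1 hi)] at h2
    simp only [sum_const, card_range, nsmul_eq_mul, mul_one] at h2
    refine h2.congr fun N => ?_
    simp only [hf, ← sum_div]
    congr 1
    conv_rhs => rw [sum_comm]
    exact sum_congr rfl fun i _ => sum_comm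
  filter_upwards [ht.eventually_le_const (show (H : ℝ) < 2 * H by linarith),
    eventually_gt_atTop 0] with N hN hN0
  have hNR : (0 : ℝ) < N := by exact_mod_cast hN0
  set s := (range N).filter fun n : ℕ => IsI (g n - α)
  have hs : {n : ℕ | n < N ∧ IsI (g n - α)} = ↑s := by ext; simp [s]
  rw [hs, Set.ncard_coe_finset]
  have hle : (s.card : ℝ) * (H : ℝ) ^ 2 ≤ ∑ n ∈ range N, f n := by
    rw [← nsmul_eq_mul, ← sum_const, ← sum_congr rfl fun n hn => f1 n (mem_filter.1 hn).2]
    exact sum_le_sum_of_subset_of_nonneg (filter_subset _ _) fun n _ _ => f0 n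
  rw [div_le_iff₀ hNR] at hN
  rw [div_lt_iff₀ hε] at hH
  have h3 : (s.card : ℝ) * H ≤ 2 * N := by nlinarith
  nlinarith

end Vale.Agent.P043.Space.Masks
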