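import Mathlib
import Vale.Agent.P043.Space.Masks.Defs

/-!
Helper for P043: Sylvester-Gallai for normals. Among pairwise independent normals that are not
all coplanar some two span a plane containing no third one (Kelly's proof in an affine chart).
-/

namespace Vale.Agent.P043.Space.Masks

open Matrix Polynomial

variable {d m : ℕ}

/-- The squared distance from `z` to the line through `p` and `q`. -/
private def dist2 (z p q : Fin d → ℚ) : ℚ :=
  ((z - p) ⬝ᵥ (z - p) * ((q - p) ⬝ᵥ (q - p)) - ((z - p) ⬝ᵥ (q - p)) ^ 2) / ((q - p) ⬝ᵥ (q - p))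

private def OnLine (z p q : Fin d → ℚ) : Prop := ∃ s : ℚ, z = p + s • (q - p)

private theorem dot_pos {x : Fin d → ℚ} (hx : x ≠ 0) : 0 < x ⬝ᵥ x := by
  obtain ⟨k, hk⟩ := Function.ne_iff.1 hx
  exact Finset.sum_pos' (fun i _ => mul_self_nonneg (x i))
    ⟨k, Finset.mem_univ k, mul_self_pos.2 hk⟩

/-- Kelly's argument: with three points on the line of a nearest pair some triple is nearer. -/
private theorem kelly {z p q r : Fin d → ℚ} (hpq : p ≠ q) (hrp : r ≠ p) (hrq : r ≠ q)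
    (hz : ¬OnLine z p q) (hr : OnLine r p q) :
    ∃ x y, (x = p ∨ x = q ∨ x = r) ∧ (y = p ∨ y = q ∨ y = r) ∧ z ≠ y ∧ ¬OnLine x z y ∧
      dist2 x z y < dist2 z p q := by
  obtain ⟨s, hs⟩ := hr
  set w := q - p with hw
  have hW : 0 < w ⬝ᵥ w := dot_pos (sub_ne_zero.2 hpq.symm)
  set τ := (z - p) ⬝ᵥ w / (w ⬝ᵥ w) with hτ
  set n := z - p - τ • w with hn
  have hnw : n ⬝ᵥ w = 0 := by
    rw [hn, sub_dotProduct (z - p) (τ • w) w, smul_dotProduct, smul_eq_mul, hτ,
      div_mul_cancel₀ _ hW.ne', sub_self]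
  have hn0 : n ≠ 0 := fun h => hz ⟨τ, by
    rw [← hw, ← sub_eq_iff_eq_add']
    exact sub_eq_zero.1 (hn ▸ h)⟩
  have hN : 0 < n ⬝ᵥ n := dot_pos hn0
  have hwn : w ⬝ᵥ n = 0 := by rw [dotProduct_comm, hnw]
  have hD : dist2 z p q = n ⬝ᵥ n := by
    rw [dist2, show z - p = τ • w + n by rw [hn]; abel, ← hw]
    simp only [add_dotProduct, dotProduct_add, smul_dotProduct, dotProduct_smul, smul_eq_mul,
      hnw, hwn]
    field_simp
    ring
  obtain ⟨α, β, hα, hβ, hne, hab, habs⟩ : ∃ α β : ℚ, (α = -τ ∨ α = 1 - τ ∨ α = s - τ) ∧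
      (β = -τ ∨ β = 1 - τ ∨ β = s - τ) ∧ α ≠ β ∧ 0 ≤ α * β ∧ |α| ≤ |β| := by
    have hs0 : s ≠ 0 := fun h => hrp (by rw [hs, h, zero_smul, add_zero])
    have hs1 : s ≠ 1 := fun h => hrq (by rw [hs, h, one_smul, hw]; abel)
    have key : ∀ α β : ℚ, (α = -τ ∨ α = 1 - τ ∨ α = s - τ) → (β = -τ ∨ β = 1 - τ ∨ β = s - τ) →
        α ≠ β → 0 ≤ α * β → ∃ α β : ℚ, (α = -τ ∨ α = 1 - τ ∨ α = s - τ) ∧
        (β = -τ ∨ β = 1 - τ ∨ β = s - τ) ∧ α ≠ β ∧ 0 ≤ α * β ∧ |α| ≤ |β| :=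
      fun α β ha hb hne h => (le_total |α| |β|).elim (fun l => ⟨α, β, ha, hb, hne, h, l⟩)
        (fun l => ⟨β, α, hb, ha, hne.symm, mul_comm α β ▸ h, l⟩)
    by_cases h1 : 0 ≤ -τ * (1 - τ)
    · exact key _ _ (.inl rfl) (.inr (.inl rfl)) (by intro h; linarith) h1
    by_cases h2 : 0 ≤ -τ * (s - τ)
    · exact key _ _ (.inl rfl) (.inr (.inr rfl)) (fun h => hs0 (by linarith)) h2
    exact key _ _ (.inr (.inl rfl)) (.inr (.inr rfl)) (fun h => hs1 (by linarith))
      (by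
        by_contra h3
        nlinarith [mul_pos_of_neg_of_neg (not_le.1 h1) (not_le.1 h2), mul_nonpos_of_nonneg_of_nonpos
          (sq_nonneg τ) (not_le.1 h3).le])
  set o := p + τ • w with ho
  have hpt : ∀ γ : ℚ, (γ = -τ ∨ γ = 1 - τ ∨ γ = s - τ) →
      (o + γ • w = p ∨ o + γ • w = q ∨ o + γ • w = r) := by
    rintro γ (rfl | rfl | rfl)
    · left; rw [ho, neg_smul]; abel
    · right; left; rw [ho, sub_smul, one_smul, hw]; abel
    · right; right; rw [ho, sub_smul, hs]; abel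
  have hz' : z = o + n := by rw [ho, hn]; abel
  have hex : ∀ γ : ℚ, o + γ • w - z = γ • w - n := fun γ => by rw [hz']; abel
  have hzy : z ≠ o + β • w := fun h => by
    have := congrArg (fun v => (v - o) ⬝ᵥ n) h
    simp only [hz', add_sub_cancel_left, smul_dotProduct, hwn, smul_zero] at this
    linarith
  refine ⟨o + α • w, o + β • w, hpt α hα, hpt β hβ, hzy, ?_, ?_⟩
  · rintro ⟨t, ht⟩
    have h0 : α • w - n = t • (β • w - n) := by
      rw [← hex, ← hex, ht]; abel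
    have h1 := congrArg (· ⬝ᵥ n) h0
    have h2 := congrArg (· ⬝ᵥ w) h0
    simp only [sub_dotProduct, smul_dotProduct, smul_eq_mul, hwn, hnw, mul_zero, zero_sub,
      sub_zero] at h1 h2
    have ht1 : t = 1 := mul_right_cancel₀ hN.ne' (by linarith)
    rw [ht1, one_mul] at h2
    exact hne (mul_right_cancel₀ hW.ne' h2)
  · rw [hD, dist2, hex, hex]
    simp only [sub_dotProduct, dotProduct_sub, smul_dotProduct, dotProduct_smul, smul_eq_mul,
      hnw, hwn, mul_zero, zero_sub, sub_zero, sub_neg_eq_add]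
    rw [div_lt_iff₀ (by nlinarith [mul_nonneg (mul_self_nonneg β) hW.le])]
    have hsq : α * α ≤ α * β := by
      nlinarith [mul_le_mul_of_nonneg_left habs (abs_nonneg α), abs_mul_abs_self α,
        abs_mul α β, abs_of_nonneg hab]
    nlinarith [mul_nonneg (mul_nonneg hN.le hW.le)
      (show (0 : ℚ) ≤ β * β - (α - β) * (α - β) by nlinarith), mul_pos hN hN]

private theorem exists_chart (V : Fin m → Fin d → ℤ) (hV : ∀ i, V i ≠ 0) :
    ∃ T : ℚ, ∀ i, ∑ k, (V i k : ℚ) * T ^ (k : ℕ) ≠ 0 := by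
  set p : Fin m → ℚ[X] := fun i => ∑ k, C (V i k : ℚ) * X ^ (k : ℕ) with hp
  have h0 : ∀ i, p i ≠ 0 := by
    intro i h
    obtain ⟨k, hk⟩ := Function.ne_iff.1 (hV i)
    have := congrArg (fun r : ℚ[X] => r.coeff k) h
    simp only [hp, finsetSum_coeff, coeff_C_mul_X_pow, coeff_zero] at this
    rw [Finset.sum_eq_single k (fun j _ hj => if_neg fun e => hj (Fin.ext e).symm) (by simp)] at this
    simp at this
    exact hk this
  by_contra! h
  have : ∏ i, p i = 0 := Polynomial.funext fun T => by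
    obtain ⟨i, hi⟩ := h T
    rw [eval_prod, eval_zero]
    exact Finset.prod_eq_zero (Finset.mem_univ i) (by simp [hp, eval_finsetSum, hi])
  exact Finset.prod_ne_zero_iff.2 (fun i _ => h0 i) this

/-- Sylvester-Gallai. -/
theorem exists_ordinary {V : Fin m → Fin d → ℤ} (hpw : ∀ i j, i ≠ j → Indep (V i) (V j))
    (s : Finset (Fin m)) {a₀ b₀ c₀ : Fin m} (ha : a₀ ∈ s) (hb : b₀ ∈ s) (hc : c₀ ∈ s)
    (hab : a₀ ≠ b₀) (hn : ¬InPlane (V a₀) (V b₀) (V c₀)) :
    ∃ a ∈ s, ∃ b ∈ s, a ≠ b ∧ ∀ c ∈ s, InPlane (V a) (V b) (V c) → c = a ∨ c = b := by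
  classical
  have hV : ∀ i, V i ≠ 0 := by
    intro i h
    obtain ⟨j, hj⟩ : ∃ j, i ≠ j := by
      by_cases e : i = a₀
      · exact ⟨b₀, e ▸ hab⟩
      · exact ⟨a₀, e⟩
    obtain ⟨z, -, hz⟩ := (hpw i j hj).symm.exists_perp
    exact hz (by simp [h, dot_apply])
  obtain ⟨T, hT⟩ := exists_chart V hV
  set ℓ : Fin m → ℚ := fun i => ∑ k, (V i k : ℚ) * T ^ (k : ℕ) with hℓ
  set Q : Fin m → Fin d → ℚ := fun i k => (V i k : ℚ) / ℓ i with hQ
  have hinj : ∀ i j, i ≠ j → Q i ≠ Q j := by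
    intro i j hij h
    obtain ⟨z, hz, hz'⟩ := (hpw i j hij).exists_perp
    have e : ∀ i, ∑ k, Q i k * (z k : ℚ) = (dot (V i) z : ℚ) / ℓ i := fun i => by
      simp only [hQ, dot_apply]
      push_cast
      rw [Finset.sum_div]
      exact Finset.sum_congr rfl fun k _ => by ring
    have := e i
    rw [h, e j, hz, Int.cast_zero, zero_div, div_eq_zero_iff] at this
    exact this.elim (fun e => hz' (by exact_mod_cast e)) (hT j)
  have hline : ∀ {a b c}, OnLine (Q c) (Q a) (Q b) → InPlane (V a) (V b) (V c) := by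
    rintro a b c ⟨t, ht⟩ w hwa hwb
    have e : ∀ i, ∑ k, Q i k * (w k : ℚ) = (dot (V i) w : ℚ) / ℓ i := fun i => by
      simp only [hQ, dot_apply]
      push_cast
      rw [Finset.sum_div]
      exact Finset.sum_congr rfl fun k _ => by ring
    have h1 := e c
    simp only [ht, Pi.add_apply, Pi.smul_apply, Pi.sub_apply, smul_eq_mul, add_mul, mul_assoc,
      sub_mul, mul_sub, Finset.sum_add_distrib, Finset.sum_sub_distrib, ← Finset.mul_sum, e, hwa,
      hwb, Int.cast_zero, zero_div, mul_zero, sub_zero, add_zero] at h1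
    rw [eq_comm, div_eq_zero_iff] at h1
    exact_mod_cast h1.resolve_right (hT c)
  have hplane : ∀ {a b c}, a ≠ b → InPlane (V a) (V b) (V c) → OnLine (Q c) (Q a) (Q b) := by
    intro a b c hne h
    obtain ⟨γ, σ, τ, hγ, ha1, hb1, ha2, hb2⟩ := (hpw a b hne).dual
    have hcomb : ∀ k, γ * V c k = dot (V c) σ * V a k + dot (V c) τ * V b k := by
      intro k
      have key := h (γ • Pi.single k 1 - V a k • σ - V b k • τ)
      simp only [map_sub, dot_smul, ha1, hb1, ha2, hb2, dot_apply (V a) (Pi.single k 1),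
        dot_apply (V b) (Pi.single k 1), dot_apply (V c) (Pi.single k 1), Pi.single_apply,
        mul_ite, mul_one, mul_zero, Finset.sum_ite_eq', Finset.mem_univ, if_true, sub_zero] at key
      linarith [key (by ring) (by ring)]
    have hl : (γ : ℚ) * ℓ c = dot (V c) σ * ℓ a + dot (V c) τ * ℓ b := by
      simp only [hℓ, Finset.mul_sum, ← Finset.sum_add_distrib]
      refine Finset.sum_congr rfl fun k _ => ?_
      rw [← mul_assoc, ← mul_assoc, ← mul_assoc, ← add_mul]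
      congr 1
      exact_mod_cast hcomb k
    have hγ' : (γ : ℚ) ≠ 0 := Int.cast_ne_zero.2 hγ.ne'
    refine ⟨dot (V c) τ * ℓ b / (γ * ℓ c), funext fun k => ?_⟩
    have hk : (γ : ℚ) * V c k = dot (V c) σ * V a k + dot (V c) τ * V b k := by
      exact_mod_cast hcomb k
    have hla : ℓ a ≠ 0 := hT a
    have hlb : ℓ b ≠ 0 := hT b
    have hlc : ℓ c ≠ 0 := hT c
    simp only [hQ, Pi.add_apply, Pi.smul_apply, Pi.sub_apply, smul_eq_mul]
    field_simp
    linear_combination (ℓ a) * hk - (V a k : ℚ) * hl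
  set S := (s ×ˢ s ×ˢ s).filter fun t => t.1 ≠ t.2.1 ∧ ¬OnLine (Q t.2.2) (Q t.1) (Q t.2.1)
    with hS
  have hne : S.Nonempty := ⟨(a₀, b₀, c₀), by
    simpa [hS, ha, hb, hc, hab] using fun h => hn (hline h)⟩
  obtain ⟨⟨a, b, z⟩, hmem, hmin⟩ :=
    S.exists_min_image (fun t => dist2 (Q t.2.2) (Q t.1) (Q t.2.1)) hne
  simp only [hS, Finset.mem_filter, Finset.mem_product] at hmem
  obtain ⟨⟨has, hbs, hzs⟩, habne, hoff⟩ := hmem
  refine ⟨a, has, b, hbs, habne, fun e hes he => ?_⟩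
  by_contra! hcon
  obtain ⟨x, y, hx, hy, hzy, hoff', hlt⟩ := kelly (hinj a b habne) (hinj e a hcon.1)
    (hinj e b hcon.2) hoff (hplane habne he)
  obtain ⟨i, his, rfl⟩ : ∃ i ∈ s, Q i = x := by
    rcases hx with rfl | rfl | rfl
    exacts [⟨a, has, rfl⟩, ⟨b, hbs, rfl⟩, ⟨e, hes, rfl⟩]
  obtain ⟨j, hjs, rfl⟩ : ∃ j ∈ s, Q j = y := by
    rcases hy with rfl | rfl | rfl
    exacts [⟨a, has, rfl⟩, ⟨b, hbs, rfl⟩, ⟨e, hes, rfl⟩]
  have hzj : z ≠ j := fun h => hzy (h ▸ rfl)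
  have := hmin (z, j, i) (by simp [hS, hzs, hjs, his, hzj, hoff'])
  exact (not_lt.2 this) hlt

end Vale.Agent.P043.Space.Masks
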