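import Mathlib
import Vale.Agent.P043.Space.Masks.Defs

/-!
Helper for P043: in a recurrent tiling an integral piece that varies on a class makes every other
piece constant there.
-/

namespace Vale.Agent.P043.Space.Masks

open Finset
open Rows (IsI)

variable {d m : ℕ} {A : Set (Fin d → ℤ)} {V : Fin m → Fin d → ℤ} {L : ℤ}
  {P : (Fin d → ℤ) → ℝ} {u : Fin m → (Fin d → ℤ) → ℝ}

/-- A shift by `k` changes a window sum by at most `2 B |k|`. -/
theorem abs_shift_sum_le {f : ℤ → ℝ} {B : ℝ} (hB : ∀ n, |f n| ≤ B) (k : ℤ) (N : ℕ) :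
    |∑ n ∈ range N, (f ((n : ℤ) + k) - f n)| ≤ 2 * B * |(k : ℝ)| := by
  have key : ∀ (g : ℤ → ℝ), (∀ n, |g n| ≤ B) → ∀ j : ℕ,
      |∑ n ∈ range N, (g ((n : ℤ) + j) - g n)| ≤ 2 * B * j := by
    intro g hg j
    induction j with
    | zero => simp
    | succ j ih =>
      have e : ∑ n ∈ range N, (g ((n : ℤ) + (j + 1 : ℕ)) - g n) =
          (g ((N : ℤ) + j) - g j) + ∑ n ∈ range N, (g ((n : ℤ) + j) - g n) := by
        have h := Finset.sum_range_sub (fun n : ℕ => g ((n : ℤ) + j)) N
        simp only [Nat.cast_zero, zero_add] at h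
        rw [← h, ← sum_add_distrib]
        refine sum_congr rfl fun n _ => ?_
        push_cast
        rw [show (n : ℤ) + ((j : ℤ) + 1) = n + 1 + j by ring]
        ring
      rw [e]
      push_cast
      refine (abs_add_le _ _).trans ?_
      linarith [(abs_sub (g ((N : ℤ) + j)) (g j)), hg ((N : ℤ) + j), hg j]
  obtain ⟨j, rfl | rfl⟩ := Int.eq_nat_or_neg k
  · simpa using key f hB j
  · have h := key (fun n => f (n + -(j : ℤ))) (fun n => hB _) j
    rw [← abs_neg] at h
    simpa [← sum_neg_distrib] using h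

/-- A vector in the hyperplane of `V a` outside all the other hyperplanes. -/
theorem exists_generic (hV : ∀ i j, i ≠ j → Indep (V i) (V j)) (a : Fin m) :
    ∃ w, dot (V a) w = 0 ∧ ∀ i, i ≠ a → dot (V i) w ≠ 0 := by
  classical
  suffices h : ∀ s : Finset (Fin m), a ∉ s →
      ∃ w, dot (V a) w = 0 ∧ ∀ i ∈ s, dot (V i) w ≠ 0 by
    obtain ⟨w, hw, hs⟩ := h (univ.erase a) (by simp)
    exact ⟨w, hw, fun i hi => hs i (by simp [hi])⟩
  intro s
  induction s using Finset.induction_on with
  | empty => exact fun _ => ⟨0, map_zero _, by simp⟩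
  | @insert l s hl ih =>
    intro hnot
    rw [Finset.mem_insert, not_or] at hnot
    obtain ⟨w, hw, hws⟩ := ih hnot.2
    obtain ⟨z, hz, hz'⟩ := (hV a l hnot.1).exists_perp
    obtain ⟨k, hk⟩ := Infinite.exists_notMem_finset
      ((insert l s).image fun j => -(dot (V j) w) / dot (V j) z)
    refine ⟨w + k • z, by rw [map_add, dot_smul, hw, hz, mul_zero, add_zero], fun i hi h0 => ?_⟩
    rw [map_add, dot_smul] at h0
    by_cases hiz : dot (V i) z = 0
    · rw [hiz, mul_zero, add_zero] at h0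
      rcases Finset.mem_insert.1 hi with rfl | hi
      · exact hz' hiz
      · exact hws i hi h0
    · refine hk (Finset.mem_image.2 ⟨i, hi, ?_⟩)
      rw [show -(dot (V i) w) = k * dot (V i) z by linarith, Int.mul_ediv_cancel _ hiz]

/-- A piece takes one value on vectors with one dot product. -/
theorem piece_eq (h : Dec A V L P u) (i : Fin m) (x y y' : Fin d → ℤ)
    (he : dot (V i) y = dot (V i) y') : u i (x + L • y) = u i (x + L • y') := by
  have := h.inv i (y - y') (by rw [map_sub, he, sub_self]) (x + L • y')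
  rwa [add_assoc, ← smul_add, add_sub_cancel] at this

/-- Windows along `w` see only the piece of `a`. -/
theorem window (h : Dec A V L P u) {a : Fin m} {w : Fin d → ℤ} (hw : dot (V a) w = 0)
    (hw0 : ∀ i, i ≠ a → dot (V i) w ≠ 0)
    {K : ℤ} (hK : ∀ i, i ≠ a → dot (V i) w ∣ K) {B : ℝ} (hB : ∀ i y, |u i y| ≤ B)
    (x z z' : Fin d → ℤ) (N : ℕ) :
    |∑ n ∈ range N, (ind A (x + L • (K • z + (n : ℤ) • w)) -
        ind A (x + L • (K • z' + (n : ℤ) • w))) -
      N * (u a (x + (L * K) • z) - u a (x + (L * K) • z'))|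
      ≤ ∑ i, 2 * B * |((K * dot (V i) (z - z') : ℤ) : ℝ)| := by
  classical
  have hP : ∀ y, P (x + L • y) = P x := fun y => h.periodic y x
  have hsplit : ∑ n ∈ range N, (ind A (x + L • (K • z + (n : ℤ) • w)) -
        ind A (x + L • (K • z' + (n : ℤ) • w))) =
      ∑ i, ∑ n ∈ range N, (u i (x + L • (K • z + (n : ℤ) • w)) -
        u i (x + L • (K • z' + (n : ℤ) • w))) := by
    rw [sum_comm]
    refine sum_congr rfl fun n _ => ?_
    rw [h.eq, h.eq, hP, hP, sum_sub_distrib]
    ring
  have ha : ∑ n ∈ range N, (u a (x + L • (K • z + (n : ℤ) • w)) -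
        u a (x + L • (K • z' + (n : ℤ) • w))) =
      N * (u a (x + (L * K) • z) - u a (x + (L * K) • z')) := by
    have e : ∀ (p : Fin d → ℤ) (n : ℕ),
        u a (x + L • (K • p + (n : ℤ) • w)) = u a (x + (L * K) • p) := fun p n => by
      rw [mul_smul]
      exact piece_eq h a x _ _ (by rw [map_add, dot_smul (V a) (n : ℤ), hw, mul_zero, add_zero])
    simp only [e, sum_const, card_range, nsmul_eq_mul]
  rw [hsplit, ← add_sum_erase _ _ (mem_univ a), ha, add_sub_cancel_left]
  refine (abs_sum_le_sum_abs _ _).trans ((sum_le_sum fun i hi => ?_).trans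
    (sum_le_sum_of_subset_of_nonneg (erase_subset a univ) fun i _ _ => ?_))
  · obtain ⟨r, hr⟩ := hK i (ne_of_mem_erase hi)
    set f : ℤ → ℝ := fun n => u i (x + L • (K • z' + n • w)) with hf
    have e : ∀ n : ℕ, u i (x + L • (K • z + (n : ℤ) • w)) = f ((n : ℤ) + r * dot (V i) (z - z')) :=
      fun n => piece_eq h i x _ _ (by
        simp only [map_add, dot_smul, map_sub]
        rw [hr]; ring)
    simp only [e]
    refine (abs_shift_sum_le (f := f) (fun n => hB i _) _ N).trans ?_
    have hB0 : 0 ≤ B := (abs_nonneg _).trans (hB i x)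
    refine mul_le_mul_of_nonneg_left ?_ (by linarith)
    rw [← Int.cast_abs, ← Int.cast_abs, Int.cast_le, hr, abs_mul, abs_mul, abs_mul]
    refine mul_le_mul_of_nonneg_right (le_mul_of_one_le_left (abs_nonneg r) ?_) (abs_nonneg _)
    exact Int.one_le_abs (hw0 i (ne_of_mem_erase hi))
  · exact mul_nonneg (by linarith [(abs_nonneg _).trans (hB i x)]) (abs_nonneg _)

/-- Indicator values differ by at least one when they differ. -/
theorem ind_cases (A : Set (Fin d → ℤ)) (p : Fin d → ℤ) : ind A p = 0 ∨ ind A p = 1 := by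
  by_cases hp : p ∈ A
  · exact Or.inr (ind_of_mem hp)
  · exact Or.inl (ind_of_notMem hp)

/-- A varying integral piece makes the tiling invariant along its hyperplane on the class. -/
theorem invariant_of_varying (h : Dec A V L P u) (hR : Recurs A) {a : Fin m} {w : Fin d → ℤ}
    (hw : dot (V a) w = 0) (hw0 : ∀ i, i ≠ a → dot (V i) w ≠ 0) {K : ℤ} (hK0 : 0 < K)
    (hK : ∀ i, i ≠ a → dot (V i) w ∣ K) {x : Fin d → ℤ} (hint : IntOn (u a) x L)
    (hvar : ¬ ConstOn (u a) x (L * K)) {δ : Fin d → ℤ} (hδ : dot (V a) δ = 0) (z : Fin d → ℤ) :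
    ind A (x + (L * K) • (z + δ)) = ind A (x + (L * K) • z) := by
  classical
  choose Bf hBf using h.bdd
  set B : ℝ := ∑ i, |Bf i| with hBdef
  have hB : ∀ i y, |u i y| ≤ B := fun i y => ((hBf i y).trans (le_abs_self _)).trans
    (single_le_sum (f := fun j => |Bf j|) (fun j _ => abs_nonneg _) (mem_univ i))
  have hLK : 0 < L * K := mul_pos h.pos hK0
  set U : (Fin d → ℤ) → ℝ := fun p => u a (x + (L * K) • p) with hU
  set g : (Fin d → ℤ) → ℕ → ℝ := fun p n => ind A (x + L • (K • p + (n : ℤ) • w)) with hg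
  set cst : (Fin d → ℤ) → ℝ :=
    fun v => ∑ i, 2 * B * |((K * dot (V i) v : ℤ) : ℝ)| with hc
  have hwin : ∀ p q N, |∑ n ∈ range N, (g p n - g q n) - N * (U p - U q)| ≤ cst (p - q) :=
    fun p q N => window h hw hw0 hK hB x p q N
  have hg01 : ∀ p n, 0 ≤ g p n ∧ g p n ≤ 1 := fun p n =>
    ⟨(ind_mem_Icc A _).1, (ind_mem_Icc A _).2⟩
  have hUint : ∀ p q, ∃ t : ℤ, U p - U q = t := fun p q => by
    have h1 : IsI (u a (x + L • (K • p)) - u a x - (u a (x + L • (K • q)) - u a x)) :=
      (hint (K • p)).sub (hint (K • q))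
    obtain ⟨t, ht⟩ := h1
    exact ⟨t, by simp only [U, mul_smul]; linarith [ht]⟩
  have hle1 : ∀ p q, U p - U q ≤ 1 := fun p q => by
    by_contra hlt
    obtain ⟨t, ht⟩ := hUint p q
    have ht2 : (2 : ℤ) ≤ t := by
      have : (1 : ℝ) < t := by rw [← ht]; linarith [not_le.1 hlt]
      exact_mod_cast this
    obtain ⟨N, hN⟩ := exists_nat_gt (cst (p - q))
    have h1 := (abs_le.1 (hwin p q N)).1
    have h2 : ∑ n ∈ range N, (g p n - g q n) ≤ N := by
      refine (sum_le_sum fun n _ => (?_ : g p n - g q n ≤ 1)).trans (by simp)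
      linarith [(hg01 p n).2, (hg01 q n).1]
    have h3 : (N : ℝ) * 2 ≤ N * (U p - U q) :=
      mul_le_mul_of_nonneg_left (by rw [ht]; exact_mod_cast ht2) (Nat.cast_nonneg N)
    linarith
  -- a high and a low point
  obtain ⟨hi, lo, hhl⟩ : ∃ hi lo, U hi - U lo = 1 := by
    simp only [ConstOn, not_forall] at hvar
    obtain ⟨p, hp⟩ := hvar
    have hp' : U p ≠ U 0 := by simpa [U] using hp
    obtain ⟨t, ht⟩ := hUint p 0
    have hlo : (-1 : ℝ) ≤ t := by rw [← ht]; linarith [hle1 0 p]
    have hup : (t : ℝ) ≤ 1 := by rw [← ht]; exact hle1 p 0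
    have hlo' : -1 ≤ t := by exact_mod_cast hlo
    have hup' : t ≤ 1 := by exact_mod_cast hup
    have hne : t ≠ 0 := fun e => hp' (by rw [e, Int.cast_zero] at ht; linarith)
    rcases (show t = 1 ∨ t = -1 by omega) with rfl | rfl
    · exact ⟨p, 0, by simpa using ht⟩
    · refine ⟨0, p, ?_⟩
      push_cast at ht
      linarith
  set hv : (Fin d → ℤ) → ℝ := fun p => U p - U lo with hhv
  have hv01 : ∀ p, hv p = 0 ∨ hv p = 1 := fun p => by
    obtain ⟨t, ht⟩ := hUint p lo
    have hup : (t : ℝ) ≤ 1 := by rw [← ht]; exact hle1 p lo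
    have hlo : (0 : ℝ) ≤ t := by rw [← ht]; linarith [hle1 hi p]
    have hup' : t ≤ 1 := by exact_mod_cast hup
    have hlo' : 0 ≤ t := by exact_mod_cast hlo
    rcases (show t = 0 ∨ t = 1 by omega) with rfl | rfl
    · exact Or.inl (by simpa [hv] using ht)
    · exact Or.inr (by simpa [hv] using ht)
  -- high and low points recur
  obtain ⟨N₀, hN₀⟩ := exists_nat_gt (2 * cst (hi - lo))
  obtain ⟨R, hRR⟩ := hR (L * K) hLK x
    (((range N₀).image fun n : ℕ => L • (K • hi + (n : ℤ) • w)) ∪
      ((range N₀).image fun n : ℕ => L • (K • lo + (n : ℤ) • w)))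
  have hrec : ∀ y, ∃ t, (∀ k, |t k| ≤ R) ∧ hv (hi + (y + t)) = 1 ∧ hv (lo + (y + t)) = 0 := by
    intro y
    obtain ⟨t, ht, heq⟩ := hRR y
    refine ⟨t, ht, ?_⟩
    have hmove : ∀ (p : Fin d → ℤ) (n : ℕ),
        x + (L * K) • (y + t) + L • (K • p + (n : ℤ) • w) =
          x + L • (K • (p + (y + t)) + (n : ℤ) • w) := fun p n => by
      simp only [mul_smul, smul_add]; abel
    have e1 : ∀ n ∈ range N₀, g (hi + (y + t)) n = g hi n := fun n hn => by
      refine ind_congr ?_
      have := heq _ (mem_union_left _ (mem_image_of_mem _ hn))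
      rwa [hmove] at this
    have e2 : ∀ n ∈ range N₀, g (lo + (y + t)) n = g lo n := fun n hn => by
      refine ind_congr ?_
      have := heq _ (mem_union_right _ (mem_image_of_mem _ hn))
      rwa [hmove] at this
    have h1 := (abs_le.1 (hwin hi lo N₀)).1
    have h2 := (abs_le.1 (hwin (hi + (y + t)) (lo + (y + t)) N₀)).2
    rw [add_sub_add_right_eq_sub] at h2
    rw [show ∑ n ∈ range N₀, (g (hi + (y + t)) n - g (lo + (y + t)) n) =
      ∑ n ∈ range N₀, (g hi n - g lo n) from
      sum_congr rfl fun n hn => by rw [e1 n hn, e2 n hn]] at h2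
    rw [hhl, mul_one] at h1
    rcases hv01 (hi + (y + t)) with q1 | q1 <;> rcases hv01 (lo + (y + t)) with q2 | q2
    all_goals
      simp only [hv] at q1 q2 ⊢
      first
        | exact ⟨q1, q2⟩
        | (exfalso
           rw [show U (hi + (y + t)) - U (lo + (y + t)) =
             (U (hi + (y + t)) - U lo) - (U (lo + (y + t)) - U lo) by ring, q1, q2] at h2
           nlinarith [Nat.cast_nonneg (α := ℝ) N₀])
  set T : Finset (Fin d → ℤ) := Fintype.piFinset fun _ => Finset.Icc (-R) R with hT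
  set C₁ : ℝ := ∑ t ∈ T, (cst (-(hi + t)) + cst (-(lo + t))) with hC₁
  have hcst0 : ∀ v, 0 ≤ cst v := fun v => sum_nonneg fun i _ =>
    mul_nonneg (by linarith [(abs_nonneg _).trans (hB i x)]) (abs_nonneg _)
  -- every window is exceptional at most boundedly often
  have hexc : ∀ p N, ∑ n ∈ range N, |g p n - hv p| ≤ C₁ := by
    intro p N
    obtain ⟨t, ht, h1, h0⟩ := hrec p
    have htT : t ∈ T := Fintype.mem_piFinset.2 fun k => Finset.mem_Icc.2 (abs_le.1 (ht k))
    have hbig : cst (-(hi + t)) + cst (-(lo + t)) ≤ C₁ :=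
      single_le_sum (f := fun t => cst (-(hi + t)) + cst (-(lo + t)))
        (fun t _ => add_nonneg (hcst0 _) (hcst0 _)) htT
    rcases hv01 p with q | q
    · have hh := (abs_le.1 (hwin p (hi + (p + t)) N)).2
      rw [show p - (hi + (p + t)) = -(hi + t) by abel,
        show U p - U (hi + (p + t)) = -1 by simp only [hv] at q h1; linarith,
        sum_sub_distrib] at hh
      have hs : ∑ n ∈ range N, g (hi + (p + t)) n ≤ N :=
        (sum_le_sum fun n _ => (hg01 _ n).2).trans (by simp)
      rw [q, sum_congr rfl fun n _ => by rw [sub_zero, abs_of_nonneg (hg01 p n).1]]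
      linarith [hcst0 (-(lo + t))]
    · have hh := (abs_le.1 (hwin p (lo + (p + t)) N)).1
      rw [show p - (lo + (p + t)) = -(lo + t) by abel,
        show U p - U (lo + (p + t)) = 1 by simp only [hv] at q h0; linarith,
        sum_sub_distrib] at hh
      have hs : 0 ≤ ∑ n ∈ range N, g (lo + (p + t)) n := sum_nonneg fun n _ => (hg01 _ n).1
      rw [q, sum_congr rfl fun n _ => by
        rw [abs_of_nonpos (show g p n - 1 ≤ 0 by linarith [(hg01 p n).2]), neg_sub],
        sum_sub_distrib]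
      simp only [sum_const, card_range, nsmul_eq_mul, mul_one]
      linarith [hcst0 (-(hi + t))]
  -- so the indicator is invariant along the hyperplane
  by_contra hne
  obtain ⟨R', hR'⟩ := hR (L * K) hLK x {(L * K) • z, (L * K) • (z + δ)}
  set T' : Finset (Fin d → ℤ) := Fintype.piFinset fun _ => Finset.Icc (-R') R' with hT'
  choose τ hτ hτeq using fun j : ℕ => hR' ((j : ℤ) • w)
  let e : (Fin d → ℤ) → ℝ := fun p => |ind A (x + (L * K) • p) - hv p|
  have hU0 : ∀ (p v : Fin d → ℤ), dot (V a) v = 0 → hv (p + v) = hv p := fun p v hv0 => by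
    simp only [hv, U, mul_smul]
    rw [piece_eq h a x (K • (p + v)) (K • p) (by
      rw [dot_smul, dot_smul, map_add, hv0, add_zero])]
  have hline : ∀ p (N : ℕ), ∑ j ∈ range N, e (p + (j : ℤ) • w) ≤ C₁ := by
    intro p N
    obtain ⟨k, rfl⟩ := Int.eq_ofNat_of_zero_le hK0.le
    have hk : 0 < k := by exact_mod_cast hK0
    calc ∑ j ∈ range N, e (p + (j : ℤ) • w)
        = ∑ j ∈ range N, |g p (k * j) - hv p| := sum_congr rfl fun j _ => by
          simp only [e, g, hU0 p ((j : ℤ) • w) (by rw [dot_smul, hw, mul_zero])]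
          congr 3
          rw [mul_smul, smul_add (k : ℤ), smul_smul (k : ℤ)]
          push_cast
          rfl
      _ = ∑ n ∈ (range N).image (fun j => k * j), |g p n - hv p| :=
          (sum_image (f := fun n => |g p n - hv p|) (g := fun j : ℕ => k * j)
            (fun i _ j _ e => Nat.eq_of_mul_eq_mul_left hk e)).symm
      _ ≤ ∑ n ∈ range (k * N), |g p n - hv p| := by
          refine sum_le_sum_of_subset_of_nonneg (fun n hn => ?_) fun n _ _ => abs_nonneg _
          obtain ⟨j, hj, rfl⟩ := mem_image.1 hn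
          exact mem_range.2 (Nat.mul_lt_mul_of_pos_left (mem_range.1 hj) hk)
      _ ≤ C₁ := hexc p _
  obtain ⟨N, hN⟩ := exists_nat_gt (∑ _t ∈ T', (C₁ + C₁))
  have hone : ∀ j ∈ range N, (1 : ℝ) ≤
      ∑ t ∈ T', (e (t + z + (j : ℤ) • w) + e (t + z + δ + (j : ℤ) • w)) := by
    intro j _
    have htT : τ j ∈ T' :=
      Fintype.mem_piFinset.2 fun k => Finset.mem_Icc.2 (abs_le.1 (hτ j k))
    refine le_trans ?_ (single_le_sum
      (f := fun t => e (t + z + (j : ℤ) • w) + e (t + z + δ + (j : ℤ) • w))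
      (fun t _ => add_nonneg (abs_nonneg _) (abs_nonneg _)) htT)
    have h1 : ind A (x + (L * K) • (τ j + z + (j : ℤ) • w)) = ind A (x + (L * K) • z) :=
      ind_congr (by
        have := hτeq j _ (Finset.mem_insert_self _ _)
        rwa [show x + (L * K) • ((j : ℤ) • w + τ j) + (L * K) • z =
          x + (L * K) • (τ j + z + (j : ℤ) • w) by simp only [smul_add]; abel] at this)
    have h2 : ind A (x + (L * K) • (τ j + z + δ + (j : ℤ) • w)) =
        ind A (x + (L * K) • (z + δ)) :=
      ind_congr (by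
        have := hτeq j _ (Finset.mem_insert_of_mem (Finset.mem_singleton_self _))
        rwa [show x + (L * K) • ((j : ℤ) • w + τ j) + (L * K) • (z + δ) =
          x + (L * K) • (τ j + z + δ + (j : ℤ) • w) by simp only [smul_add]; abel] at this)
    simp only [e]
    rw [h1, h2, show τ j + z + δ + (j : ℤ) • w = τ j + z + (j : ℤ) • w + δ by abel, hU0 _ δ hδ]
    rcases ind_cases A (x + (L * K) • z) with q1 | q1 <;>
      rcases ind_cases A (x + (L * K) • (z + δ)) with q2 | q2 <;>
        rcases hv01 (τ j + z + (j : ℤ) • w) with q3 | q3 <;>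
          rw [q1, q2, q3] <;> first | exact absurd (q2.trans q1.symm) hne | norm_num
  have hsum : (N : ℝ) ≤ ∑ _t ∈ T', (C₁ + C₁) := calc
    (N : ℝ) = ∑ _j ∈ range N, (1 : ℝ) := by simp
    _ ≤ ∑ j ∈ range N, ∑ t ∈ T', (e (t + z + (j : ℤ) • w) + e (t + z + δ + (j : ℤ) • w)) :=
        sum_le_sum hone
    _ = ∑ t ∈ T', ∑ j ∈ range N, (e (t + z + (j : ℤ) • w) + e (t + z + δ + (j : ℤ) • w)) :=
        sum_comm
    _ ≤ ∑ _t ∈ T', (C₁ + C₁) := sum_le_sum fun t _ => by
        rw [sum_add_distrib]; exact add_le_add (hline _ N) (hline _ N)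
  linarith

/-- An integral piece that varies makes all other pieces constant on a finer class. -/
theorem exists_one_int (h : Dec A V L P u) (hR : Recurs A) :
    ∃ K : ℤ, 0 < K ∧ ∀ x a, IntOn (u a) x L → ¬ConstOn (u a) x (L * K) →
      ∀ b, b ≠ a → ConstOn (u b) x (L * K) := by
  classical
  choose w hw hw0 using fun a => exists_generic h.indep a
  set K : ℤ := ∏ a, ∏ i ∈ univ.erase a, |dot (V i) (w a)| with hKdef
  have hK0 : 0 < K :=
    prod_pos fun a _ => prod_pos fun i hi => abs_pos.2 (hw0 a i (ne_of_mem_erase hi))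
  have hdiv : ∀ a i, i ≠ a → dot (V i) (w a) ∣ K := fun a i hi =>
    (self_dvd_abs _).trans ((Finset.dvd_prod_of_mem (fun j => |dot (V j) (w a)|)
      (mem_erase.2 ⟨hi, mem_univ i⟩)).trans
        (Finset.dvd_prod_of_mem (fun c => ∏ j ∈ univ.erase c, |dot (V j) (w c)|) (mem_univ a)))
  refine ⟨K * K * K, by positivity, fun x a hint hvar b hba y => ?_⟩
  have hvar' : ¬ ConstOn (u a) x (L * K) := fun hc => hvar fun y => by
    rw [show (L * (K * K * K)) • y = (L * K) • ((K * K) • y) by rw [smul_smul]; ring_nf]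
    exact hc _
  have hinv : ∀ δ z, dot (V a) δ = 0 →
      ind A (x + (L * K) • (z + δ)) = ind A (x + (L * K) • z) := fun δ z hδ =>
    invariant_of_varying h hR (hw a) (hw0 a) hK0 (hdiv a) hint hvar' hδ z
  have h' := h.mono hK0
  choose Bf hBf using h.bdd
  set B : ℝ := ∑ i, |Bf i| with hBdef
  have hB : ∀ i y, |u i y| ≤ B := fun i y => ((hBf i y).trans (le_abs_self _)).trans
    (single_le_sum (f := fun j => |Bf j|) (fun j _ => abs_nonneg _) (mem_univ i))
  have hb : ∀ δ, dot (V a) δ = 0 → u b (x + (L * K * K) • δ) = u b x := by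
    intro δ hδ
    by_contra hne
    set c : ℝ := u b (x + (L * K * K) • δ) - u b x with hc
    have hc0 : 0 < |c| := abs_pos.2 (sub_ne_zero.2 hne)
    obtain ⟨N, hN⟩ := exists_nat_gt
      ((∑ i, 2 * B * |((K * dot (V i) (δ - 0) : ℤ) : ℝ)|) / |c|)
    rw [div_lt_iff₀ hc0] at hN
    have hwn := window h' (hw b) (hw0 b) (hdiv b) hB x δ 0 N
    have hz : ∑ n ∈ range N, (ind A (x + (L * K) • (K • δ + (n : ℤ) • w b)) -
        ind A (x + (L * K) • (K • (0 : Fin d → ℤ) + (n : ℤ) • w b))) = 0 :=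
      sum_eq_zero fun n _ => by
        rw [smul_zero, zero_add, add_comm (K • δ),
          hinv (K • δ) _ (by rw [dot_smul, hδ, mul_zero]), sub_self]
    rw [hz, smul_zero, add_zero, zero_sub, abs_neg, abs_mul, Nat.abs_cast] at hwn
    linarith
  set s := dot (V b) (w a) with hs
  obtain ⟨r, hr⟩ : s ∣ K := hdiv a b hba
  have := piece_eq h b x ((K * K) • (K • y)) ((K * K) • ((r * dot (V b) y) • w a)) (by
    simp only [dot_smul, ← hs]
    rw [hr]; ring)
  calc u b (x + (L * (K * K * K)) • y) = u b (x + L • ((K * K) • (K • y))) := by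
        simp only [smul_smul]
    _ = u b (x + L • ((K * K) • ((r * dot (V b) y) • w a))) := this
    _ = u b (x + (L * K * K) • ((r * dot (V b) y) • w a)) := by
        simp only [smul_smul]; ring_nf
    _ = u b x := hb _ (by rw [dot_smul, hw a, mul_zero])

end Vale.Agent.P043.Space.Masks
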