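import Mathlib
import Vale.Agent.P043.Space.Masks.Ordinary
import Vale.Agent.P043.Space.Masks.Irr
import Vale.Agent.P043.Space.Masks.Recur
import Vale.Agent.P043.Space.Masks.PlaneMean

/-!
Helper for P043: the classes with an irrational piece have coplanar irrational normals and cannot
share a fibre with a class meeting their plane once.
-/

namespace Vale.Agent.P043.Space.Masks

open Finset
open Rows (IsI)

variable {d m : ℕ}

theorem IntOn.mono {φ : (Fin d → ℤ) → ℝ} {x : Fin d → ℤ} {L : ℤ} (h : IntOn φ x L) (K : ℤ)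
    (z : Fin d → ℤ) : IntOn φ (x + L • z) (L * K) := fun y => by
  convert (h (z + K • y)).sub (h z) using 1
  rw [smul_add, smul_smul, ← add_assoc]
  ring

theorem ConstOn.mono {φ : (Fin d → ℤ) → ℝ} {x : Fin d → ℤ} {L : ℤ} (h : ConstOn φ x L) (K : ℤ)
    (z : Fin d → ℤ) : ConstOn φ (x + L • z) (L * K) := fun y => by
  rw [add_assoc, show L • z + (L * K) • y = L • (z + K • y) by rw [smul_add, smul_smul], h, h]

theorem ConstOn.intOn {φ : (Fin d → ℤ) → ℝ} {x : Fin d → ℤ} {L : ℤ} (h : ConstOn φ x L) :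
    IntOn φ x L := fun y => by rw [h y, sub_self]; exact Rows.isI_zero

theorem IntOn.shift_iff {φ : (Fin d → ℤ) → ℝ} {x : Fin d → ℤ} {L : ℤ} (z : Fin d → ℤ) :
    IntOn φ (x + L • z) L ↔ IntOn φ x L := by
  refine ⟨fun h => ?_, fun h => ?_⟩
  · simpa using h.mono 1 (-z)
  · simpa using h.mono 1 z

theorem IrrOn.not_intOn {v : Fin d → ℤ} (hv : v ≠ 0) {φ : (Fin d → ℤ) → ℝ} {x : Fin d → ℤ}
    {L : ℤ} (h : IrrOn v φ x L) : ¬IntOn φ x L := fun hi =>
  h.not_int hv one_ne_zero fun y => by simpa using hi y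

theorem isI_ind (A : Set (Fin d → ℤ)) (x : Fin d → ℤ) : IsI (ind A x) := by
  by_cases hx : x ∈ A
  · exact ⟨1, by simp [ind_of_mem hx]⟩
  · exact ⟨0, by simp [ind_of_notMem hx]⟩

theorem InPlane.swap {a b l l' : Fin d → ℤ} (hab : Indep a b) (hll : Indep l l')
    (h : InPlane a b l) (h' : InPlane a b l') : InPlane l l' a ∧ InPlane l l' b := by
  obtain ⟨c, s, t, hc, has, hbs, hat, hbt⟩ := hab.dual
  obtain ⟨c', s', t', hc', hs1, hs2, ht1, ht2⟩ := hll.dual
  have key : ∀ q, (∀ w, dot a w = 0 → dot b w = 0 → dot q w = 0) → ∀ z,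
      c * dot q z = dot a z * dot q s + dot b z * dot q t := fun q hq z => by
    have h1 := hq (c • z - dot a z • s - dot b z • t)
      (by simp only [map_sub, dot_smul, has, hat]; ring)
      (by simp only [map_sub, dot_smul, hbs, hbt]; ring)
    simp only [map_sub, dot_smul] at h1
    linarith
  have e1 := key l h s'
  have e2 := key l h t'
  have e3 := key l' h' s'
  have e4 := key l' h' t'
  rw [hs1] at e1; rw [ht1] at e2; rw [hs2] at e3; rw [ht2] at e4
  have hD : (dot l s * dot l' t - dot l t * dot l' s) *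
      (dot a s' * dot b t' - dot b s' * dot a t') = (c * c') * (c * c') := by
    linear_combination -(c * c') * e1 - (dot a s' * dot l s + dot b s' * dot l t) * e4
      + (dot a t' * dot l s + dot b t' * dot l t) * e3
  have hne : dot l s * dot l' t - dot l t * dot l' s ≠ 0 := fun e => by
    rw [e, zero_mul] at hD
    exact mul_ne_zero (mul_ne_zero hc.ne' hc'.ne') (mul_ne_zero hc.ne' hc'.ne') hD.symm
  refine ⟨fun w h1 h2 => ?_, fun w h1 h2 => ?_⟩ <;>
  · have f1 := key l h w
    have f2 := key l' h' w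
    rw [h1, mul_zero] at f1
    rw [h2, mul_zero] at f2
    refine (mul_eq_zero.1 ?_).resolve_right hne
    first
      | linear_combination -(dot l' t) * f1 + dot l t * f2
      | linear_combination dot l' s * f1 - dot l s * f2

/-- Vanishing on a set closed under the steps gives vanishing differences there. -/
theorem Dl_eq_zero_on {S : Set (Fin d → ℤ)} {f : (Fin d → ℤ) → ℝ} :
    ∀ {l : List (Fin d → ℤ)}, (∀ h ∈ l, ∀ x ∈ S, x + h ∈ S) → (∀ x ∈ S, f x = 0) →
      ∀ x ∈ S, Dl l f x = 0
  | [], _, hf => hf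
  | k :: l, hl, hf => fun x hx => by
    have ih := Dl_eq_zero_on (fun h hh => hl h (List.mem_cons_of_mem _ hh)) hf
    show Dl l f (x + k) - Dl l f x = 0
    rw [ih _ (hl k List.mem_cons_self x hx), ih x hx, sub_self]

/-- Integral variation or irrational on every class, one integral varying piece at most. -/
structure Fine (V : Fin m → Fin d → ℤ) (L : ℤ) (u : Fin m → (Fin d → ℤ) → ℝ) : Prop where
  dich : ∀ i x, IntOn (u i) x L ∨ IrrOn (V i) (u i) x L
  excl : ∀ x a b, a ≠ b → IntOn (u a) x L → ¬ConstOn (u a) x L → ConstOn (u b) x L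

variable {A : Set (Fin d → ℤ)} {V : Fin m → Fin d → ℤ} {L : ℤ} {P : (Fin d → ℤ) → ℝ}
  {u : Fin m → (Fin d → ℤ) → ℝ}

theorem exists_fine_level (h : Dec A V L P u) (hR : Recurs A) :
    ∃ K : ℤ, 0 < K ∧ Fine V (L * K) u := by
  obtain ⟨K₁, hK₁, hd⟩ := exists_dichotomy h
  obtain ⟨K₂, hK₂, he⟩ := exists_one_int (h.mono hK₁) hR
  refine ⟨K₁ * K₂, mul_pos hK₁ hK₂, fun i x => ?_, fun x a b hab hI hC => ?_⟩ <;>
    rw [← mul_assoc] at *
  · rcases hd i x with h1 | h1
    · left; simpa using h1.mono K₂ 0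
    · right; simpa using h1.mono hK₂ 0
  · refine he x a ?_ hC b hab.symm
    rcases hd a x with h1 | h1
    · exact h1
    · refine absurd hI (IrrOn.not_intOn (h.ne a) ?_)
      simpa using h1.mono hK₂ 0

theorem Fine.irr (hf : Fine V L u) {i : Fin m} {x : Fin d → ℤ} (hi : ¬IntOn (u i) x L) :
    IrrOn (V i) (u i) x L := (hf.dich i x).resolve_left hi

/-- Next to an irrational piece, integral pieces are constant. -/
theorem Fine.const (hf : Fine V L u) {a b : Fin m} {x : Fin d → ℤ} (ha : ¬IntOn (u a) x L)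
    (hb : IntOn (u b) x L) : ConstOn (u b) x L :=
  by_contra fun hC => ha (hf.excl x b a (fun e => ha (e ▸ hb)) hb hC).intOn

theorem Fine.var (hf : Fine V L u) (h : Dec A V L P u) {a : Fin m} {x : Fin d → ℤ}
    (ha : ¬IntOn (u a) x L) (s : Finset (Fin m)) (hs : ∀ c, ¬IntOn (u c) x L → c ∈ s)
    (y : Fin d → ℤ) :
    ind A (x + L • y) - ind A x = ∑ c ∈ s, (u c (x + L • y) - u c x) := by
  rw [h.eq, h.eq, h.periodic y x, add_sub_add_left_eq_sub, ← sum_sub_distrib]
  refine (sum_subset (subset_univ s) fun c _ hc => ?_).symm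
  rw [hf.const ha (by_contra fun h' => hc (hs c h')) y, sub_self]

/-- An irrational piece never comes alone. -/
theorem Fine.exists_other (hf : Fine V L u) (h : Dec A V L P u) {a : Fin m} {x : Fin d → ℤ}
    (ha : ¬IntOn (u a) x L) : ∃ b, b ≠ a ∧ ¬IntOn (u b) x L := by
  by_contra hno
  push Not at hno
  refine ha fun y => ?_
  have := hf.var h ha {a} (fun c hc => mem_singleton.2 (by_contra fun e => hc (hno c e))) y
  rw [sum_singleton] at this
  rw [← this]
  exact (isI_ind A _).sub (isI_ind A _)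

/-- The irrational normals of a class lie in one plane. -/
theorem Fine.coplanar (hf : Fine V L u) (h : Dec A V L P u) {a b c : Fin m} {x : Fin d → ℤ}
    (ha : ¬IntOn (u a) x L) (hb : ¬IntOn (u b) x L) (hc : ¬IntOn (u c) x L) (hab : a ≠ b) :
    InPlane (V a) (V b) (V c) := by
  classical
  by_contra hn
  set N := univ.filter fun i => ¬IntOn (u i) x L
  have hN : ∀ i, i ∈ N ↔ ¬IntOn (u i) x L := fun i => by simp [N]
  obtain ⟨i, hi, j, hj, hij, hord⟩ :=
    exists_ordinary h.indep N ((hN a).2 ha) ((hN b).2 hb) ((hN c).2 hc) hab hn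
  rw [hN] at hi hj
  obtain ⟨K, G, hK, hG, hvar, -, -⟩ := exists_planeMean h hij
  obtain ⟨c₀, s, t, hc₀, his, hjs, hit, hjt⟩ := (h.indep i j hij).dual
  have hIrr : ∀ l, ¬IntOn (u l) x L → IrrOn (V l) (u l) x (L * (K * c₀)) := fun l hl => by
    simpa using (hf.irr hl).mono (mul_pos hK hc₀) 0
  obtain ⟨y₁, y₁', r₁⟩ := (hIrr i hi).range h
  obtain ⟨y₂, y₂', r₂⟩ := (hIrr j hj).range h
  have hval : ∀ y y', u i (x + (L * (K * c₀)) • y) = u i (x + (L * K) •
        (dot (V i) y • s + dot (V j) y' • t)) ∧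
      u j (x + (L * (K * c₀)) • y') = u j (x + (L * K) •
        (dot (V i) y • s + dot (V j) y' • t)) := by
    intro y y'
    have key : ∀ q : Fin d → ℤ, x + (L * (K * c₀)) • q = x + (L * K) •
        (dot (V i) y • s + dot (V j) y' • t) +
        L • (K • (c₀ • q - (dot (V i) y • s + dot (V j) y' • t))) := fun q => by
      rw [smul_sub, smul_sub, smul_smul K c₀, smul_smul L (K * c₀), smul_smul L K]; abel
    constructor
    · rw [key y]
      exact h.inv i _ (by simp only [dot_smul, map_sub, map_add, his, hit]; ring) _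
    · rw [key y']
      exact h.inv j _ (by simp only [dot_smul, map_sub, map_add, hjs, hjt]; ring) _
  have hsum : ∀ y, G (x + (L * K) • y) - G x = (u i (x + (L * K) • y) - u i x) +
      (u j (x + (L * K) • y) - u j x) := fun y => by
    rw [hvar, ← sum_pair (f := fun l => u l (x + (L * K) • y) - u l x) hij]
    refine (sum_subset ?_ fun l hl hl' => ?_).symm
    · refine insert_subset_iff.2 ⟨mem_filter.2 ⟨mem_univ _, fun w h1 _ => h1⟩, ?_⟩
      exact singleton_subset_iff.2 (mem_filter.2 ⟨mem_univ _, fun w _ h2 => h2⟩)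
    · have hI : IntOn (u l) x L := by_contra fun hI =>
        hl' (by simpa using hord l ((hN l).2 hI) (mem_filter.1 hl).2)
      rw [mul_smul, hf.const hi hI (K • y), sub_self]
  set top := dot (V i) y₁ • s + dot (V j) y₂ • t
  set bot := dot (V i) y₁' • s + dot (V j) y₂' • t
  have t1 := hsum top
  have t2 := hsum bot
  rw [← (hval y₁ y₂).1, ← (hval y₁ y₂).2] at t1
  rw [← (hval y₁' y₂').1, ← (hval y₁' y₂').2] at t2
  linarith [(hG (x + (L * K) • top)).2, (hG (x + (L * K) • bot)).1]

/-- All irrational pieces of the class lie in the plane of two normals, and there is one. -/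
def Flat (V : Fin m → Fin d → ℤ) (u : Fin m → (Fin d → ℤ) → ℝ) (L : ℤ) (i j : Fin m)
    (x : Fin d → ℤ) : Prop :=
  (∃ a, ¬IntOn (u a) x L) ∧ ∀ c, ¬IntOn (u c) x L → InPlane (V i) (V j) (V c)

theorem flat_shift {i j : Fin m} {x : Fin d → ℤ} (z : Fin d → ℤ) :
    Flat V u L i j (x + L • z) ↔ Flat V u L i j x := by simp only [Flat, IntOn.shift_iff]

theorem Fine.flat_inv (hf : Fine V L u) (h : Dec A V L P u) {i j : Fin m} {x : Fin d → ℤ}
    (hx : Flat V u L i j x) {w : Fin d → ℤ} (hw : w ∈ ker2 (V i) (V j)) :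
    ind A (x + L • w) = ind A x := by
  classical
  obtain ⟨⟨a, ha⟩, hin⟩ := hx
  rw [← sub_eq_zero, hf.var h ha (univ.filter fun c => ¬IntOn (u c) x L) (fun c hc => by simpa using hc)]
  refine sum_eq_zero fun c hc => ?_
  rw [h.inv c w (hin c (mem_filter.1 hc).2 _ hw.1 hw.2), sub_self]

/-- A class with an irrational piece meets the tiling on each of its subclasses. -/
theorem exists_mem_of_irr (h : Dec A V L P u) {a : Fin m} {x : Fin d → ℤ}
    (ha : IrrOn (V a) (u a) x L) {K : ℤ} (hK : 0 < K) : ∃ y, x + (L * K) • y ∈ A := by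
  by_contra hno
  push Not at hno
  obtain ⟨τ, hτ, hst⟩ := exists_steps a (h.ne a) fun l hl => (h.indep l a hl).exists_perp
  obtain ⟨steps, hτs, hcong, hkill⟩ := hst (L * K)
  have h' := h.mono hK
  set g : ℤ → ℝ := fun n => u a (x + n • (L * K) • τ) with hg
  have hzero : ∀ n : ℤ, (fwdDiff 1)^[steps.length] g n = 0 := fun n => by
    rw [← Dl_line (f := u a) (fun k hk => by
      obtain ⟨w, hw, e⟩ := hcong k hk; rw [e]; exact h'.inv a w hw) x n]
    have hall : ∀ y, Dl steps (ind A) y = Dl steps (u a) y := fun y => by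
      rw [show ind A = fun z => P z + ∑ l, u l z from funext h.eq, Dl_add,
        Dl_eq_zero hτs (h'.periodic _), zero_add]
      refine Dl_others a (fun l hl => ?_) y
      obtain ⟨k, hk, w, hw, e⟩ := hkill l hl
      exact ⟨k, hk, e ▸ h'.inv l w hw⟩
    rw [← hall]
    refine Dl_eq_zero_on (S := {z | ∃ y, z = x + (L * K) • y}) ?_
      (fun z ⟨y, hy⟩ => ind_of_notMem (hy ▸ hno y)) _ ⟨n • τ, by rw [smul_comm]⟩
    rintro k hk z ⟨y, rfl⟩
    obtain ⟨w, -, e⟩ := hcong k hk
    exact ⟨y + τ + w, by rw [sub_eq_iff_eq_add.1 e, smul_add, smul_add]; abel⟩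
  obtain ⟨n, hn⟩ : ∃ n, steps.length = n + 1 :=
    ⟨steps.length - 1, by have := List.length_pos_of_mem hτs; omega⟩
  obtain ⟨B, hB⟩ := h.bdd a
  have hstep : ∀ k : ℤ, g (k + 1) = g k := fun k =>
    Rows.const_of_bounded n g B k (fun _ => hB _) (fun j _ => by rw [← hn]; exact hzero j) k le_rfl
  have hconst : ∀ k : ℤ, g k = g 0 := by
    intro k
    induction k using Int.induction_on with
    | zero => rfl
    | succ k ih => rw [hstep, ih]
    | pred k ih => rw [← ih, ← hstep (-(k : ℤ) - 1), sub_add_cancel]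
  have hs : IrrSeq g := by
    convert ha τ hτ K hK 0 using 1
    funext k
    simp only [hg, smul_zero, add_zero, smul_comm k (L * K) τ]
  exact hs.not_int one_ne_zero fun k => by rw [hconst k, sub_self]; exact Rows.isI_zero

/-- A flat class does not share a fibre with a class meeting its plane in one irrational normal. -/
theorem Fine.no_single (hf : Fine V L u) (h : Dec A V L P u) (hR : Recurs A) {i j a : Fin m}
    (hij : i ≠ j) {z₁ z₂ : Fin d → ℤ} (hd : ∀ y, ind A (y + z₁) + ind A (y + z₂) ≤ 1)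
    (h₁ : Flat V u L i j z₁) (h₂ : ¬IntOn (u a) z₂ L) (hain : InPlane (V i) (V j) (V a))
    (honly : ∀ l, InPlane (V i) (V j) (V l) → ¬IntOn (u l) z₂ L → l = a) : False := by
  classical
  obtain ⟨b, hb⟩ := h₁.1
  obtain ⟨K, G, hK, hG, hvar, hdisj, hself⟩ := exists_planeMean h hij
  set e := dot (V a) (V a) with he
  have he0 : 0 < e := dot_self_pos (h.ne a)
  set g : ℤ → ℝ := fun n => u a (z₂ + (L * K) • n • (V a)) with hg
  have hgI : IrrSeq g := by simpa [hg] using hf.irr h₂ (V a) he0 K hK 0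
  -- where the flat class is occupied, the mean of the other class vanishes
  set β := u a z₂ - G z₂ with hβ
  have hhit : ∀ q, z₁ + (L * K) • (e • q) ∈ A → g (dot (V a) q) = β := by
    intro q hq
    have h1 : G (z₁ + (L * K) • (e • q)) = 1 := by
      rw [hself _ fun w hw => hf.flat_inv h ?_ hw, ind_of_mem hq]
      rw [mul_smul]
      exact (flat_shift _).2 h₁
    have h2 := hdisj (-z₁) (-z₂) (fun y => by simpa using hd y) ((L * K) • (e • q))
    rw [sub_neg_eq_add, sub_neg_eq_add, add_comm _ z₁, add_comm _ z₂, h1] at h2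
    have h3 := hvar z₂ (e • q)
    rw [sum_eq_single a ?_ (fun hn => by simp [hain] at hn)] at h3
    · have h4 : u a (z₂ + (L * K) • (e • q)) = g (dot (V a) q) := by
        rw [hg, show z₂ + (L * K) • (e • q) = z₂ + (L * K) • dot (V a) q • (V a) +
          L • (K • (e • q - dot (V a) q • (V a))) by
            rw [smul_smul L K, smul_sub]; abel]
        exact h.inv a _ (by rw [dot_smul, map_sub, dot_smul, dot_smul, ← he]; ring) _
      rw [h4] at h3
      linarith [(hG (z₂ + (L * K) • (e • q))).1]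
    · intro l hl hla
      have hI : IntOn (u l) z₂ L := by_contra fun hI => hla (honly l (mem_filter.1 hl).2 hI)
      rw [mul_smul, hf.const h₂ hI _, sub_self]
  obtain ⟨y₀, hy₀⟩ := exists_mem_of_irr h (hf.irr hb) (mul_pos hK he0)
  obtain ⟨R, hR⟩ := hR (L * (K * e)) (mul_pos h.pos (mul_pos hK he0))
    (z₁ + (L * (K * e)) • y₀) {0}
  set S : ℤ := ∑ k, |(V a) k| * |R| with hS
  have hS0 : 0 ≤ S := sum_nonneg fun k _ => by positivity
  -- one point in every block
  have hblock : ∀ n : ℕ, ∃ δ : ℤ, |δ| ≤ S ∧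
      g (((2 * S + 1) * n + S + 1) * e + δ) = β := by
    intro n
    obtain ⟨t, ht, hW⟩ := hR (((2 * S + 1) * n + S + 1) • (V a) - y₀)
    have := (hW 0 (mem_singleton_self _)).2 (by simpa using hy₀)
    refine ⟨dot (V a) t, ?_, ?_⟩
    · rw [dot_apply]
      refine (abs_sum_le_sum_abs _ _).trans (sum_le_sum fun k _ => ?_)
      rw [abs_mul]
      exact mul_le_mul_of_nonneg_left ((ht k).trans (le_abs_self R)) (abs_nonneg _)
    · rw [show ((2 * S + 1) * n + S + 1) * e + dot (V a) t
          = dot (V a) (((2 * S + 1) * (n : ℤ) + S + 1) • (V a) + t) by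
        rw [map_add, dot_smul, he]]
      refine hhit _ ?_
      convert this using 1
      rw [add_zero, add_assoc z₁, ← smul_add, smul_smul (L * K) e, ← mul_assoc L K e]
      congr 2
      abel
  choose δ hδ hgδ using hblock
  set C : ℕ := (2 * ((2 * S + 1) * e) + 2 * S + 2).toNat with hC
  have hCpos : 0 < C := by rw [hC]; have : 0 < (2 * S + 1) * e := by positivity
                           omega
  have hev := (Filter.tendsto_atTop_atTop.2 fun M => ⟨M, fun n hn => le_trans hn
    (Nat.le_mul_of_pos_left n hCpos)⟩ : Filter.Tendsto (fun n : ℕ => C * n) Filter.atTop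
      Filter.atTop).eventually (hgI.count β (show (0 : ℝ) < 1 / (2 * C) by positivity))
  obtain ⟨M, hM, hM0⟩ := (hev.and (Filter.eventually_gt_atTop 0)).exists
  set J : ℕ → ℕ := fun n => (((2 * S + 1) * n + S + 1) * e + δ n).toNat with hJ
  have hJv : ∀ n : ℕ, (J n : ℤ) = ((2 * S + 1) * n + S + 1) * e + δ n := fun n => by
    rw [hJ, Int.toNat_of_nonneg]
    have := abs_le.1 (hδ n)
    have h1 : S + 1 ≤ ((2 * S + 1) * (n : ℤ) + S + 1) * e :=
      le_trans (by nlinarith) (le_mul_of_one_le_right (by positivity) he0)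
    linarith
  have hmaps : Set.MapsTo J ↑(range M) {n : ℕ | n < C * M ∧ IsI (g n - β)} := by
    intro n hn
    have hnM : n < M := mem_range.1 hn
    refine ⟨?_, by rw [hJv, hgδ, sub_self]; exact Rows.isI_zero⟩
    have h1 := abs_le.1 (hδ n)
    have h2 : ((n : ℤ) + 1) ≤ M := by exact_mod_cast hnM
    have : (J n : ℤ) < (C : ℤ) * M := by
      rw [hJv, hC, Int.toNat_of_nonneg (by positivity)]
      have : 0 ≤ (2 * S + 1) * e := by positivity
      nlinarith
    exact_mod_cast this
  have hinj : Set.InjOn J ↑(range M) := by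
    intro n _ k _ hnk
    have h1 : (J n : ℤ) = J k := by rw [hnk]
    rw [hJv, hJv] at h1
    have a1 := abs_le.1 (hδ n)
    have a2 := abs_le.1 (hδ k)
    by_contra hne
    rcases lt_or_gt_of_ne hne with hl | hl
    · have hl' : ((n : ℤ) + 1) ≤ k := by exact_mod_cast hl
      nlinarith [mul_le_mul_of_nonneg_right hl' (show 0 ≤ (2 * S + 1) * e by positivity)]
    · have hl' : ((k : ℤ) + 1) ≤ n := by exact_mod_cast hl
      nlinarith [mul_le_mul_of_nonneg_right hl' (show 0 ≤ (2 * S + 1) * e by positivity)]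
  have hfin : {n : ℕ | n < C * M ∧ IsI (g n - β)}.Finite :=
    (Set.finite_lt_nat (C * M)).subset fun n hn => hn.1
  have hcard := Set.ncard_le_ncard_of_injOn J hmaps hinj hfin
  rw [Set.ncard_coe_finset, card_range] at hcard
  have hcard' : (M : ℝ) ≤ (Set.ncard {n : ℕ | n < C * M ∧ IsI (g n - β)} : ℝ) := by
    exact_mod_cast hcard
  have hMR : (0 : ℝ) < M := by exact_mod_cast hM0
  have hCR : (0 : ℝ) < C := by exact_mod_cast hCpos
  push_cast at hM
  rw [show 1 / (2 * (C : ℝ)) * ((C : ℝ) * M) = M / 2 by field_simp] at hM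
  linarith

end Vale.Agent.P043.Space.Masks
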