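import Mathlib
import Vale.Agent.P043.Space.Basic

/-!
Helper for P043: periodic tilings of lattice sets give periodic tilings of their cube unions.
-/

namespace Vale.Agent.P043.Space.Masks

open MeasureTheory Pointwise

variable {d : ℕ}

/-- The union of the closed unit cubes with lower corners in `F`. -/
def cubes (F : Finset (Fin d → ℤ)) : Set (Fin d → ℝ) :=
  {x | ∃ f ∈ F, ∀ k, (f k : ℝ) ≤ x k ∧ x k ≤ f k + 1}

/-- Points with an integral coordinate. -/
def grid (d : ℕ) : Set (Fin d → ℝ) := {x | ∃ (k : Fin d) (z : ℤ), x k = z}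

theorem volume_grid (d : ℕ) : volume (grid d) = 0 := by
  rw [show grid d = ⋃ k : Fin d, ⋃ z : ℤ, (Function.eval k) ⁻¹' {(z : ℝ)} by
    ext x; simp [grid]]
  refine measure_iUnion_null fun k => measure_iUnion_null fun z => ?_
  rw [volume_pi]
  exact Measure.pi_hyperplane (fun _ : Fin d => (volume : Measure ℝ)) k (z : ℝ)

theorem volume_cubes_pos {F : Finset (Fin d → ℤ)} (hF : F.Nonempty) :
    0 < volume (cubes F) := by
  obtain ⟨f, hf⟩ := hF
  refine lt_of_lt_of_le ?_ (measure_mono (show Set.Icc (fun k => (f k : ℝ))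
    (fun k => (f k : ℝ) + 1) ⊆ cubes F from fun x hx => ⟨f, hf, fun k => ⟨hx.1 k, hx.2 k⟩⟩))
  simp [Real.volume_Icc_pi]

theorem measurable_cubes (F : Finset (Fin d → ℤ)) : MeasurableSet (cubes F) := by
  rw [show cubes F = ⋃ f ∈ F, Set.Icc (fun k => (f k : ℝ)) (fun k => (f k : ℝ) + 1) by
    ext x
    simp only [cubes, Set.mem_ofPred_eq, Set.mem_iUnion, Set.mem_Icc, Pi.le_def, forall_and,
      exists_prop]]
  exact Finset.measurableSet_biUnion _ fun f _ => measurableSet_Icc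

theorem preimage_sub (Ω : Set (Fin d → ℝ)) (a : Fin d → ℝ) :
    (fun x => x - a) ⁻¹' Ω = a +ᵥ Ω := by
  ext x
  simp [Set.mem_vadd_set_iff_neg_vadd_mem, sub_eq_neg_add]

theorem vadd_linear_image (L : (Fin d → ℝ) ≃ₗ[ℝ] (Fin d → ℝ)) (a : Fin d → ℝ)
    (S : Set (Fin d → ℝ)) : L a +ᵥ (L '' S) = L '' (a +ᵥ S) := by
  simp only [← Set.image_vadd, Set.image_image, vadd_eq_add, map_add]

theorem null_linear_image (L : (Fin d → ℝ) ≃ₗ[ℝ] (Fin d → ℝ)) (S : Set (Fin d → ℝ)) :
    volume (L '' S) = 0 ↔ volume S = 0 := by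
  have hdet : LinearMap.det (L : (Fin d → ℝ) →ₗ[ℝ] (Fin d → ℝ)) ≠ 0 :=
    (LinearEquiv.isUnit_det' L).ne_zero
  rw [show (L : (Fin d → ℝ) → Fin d → ℝ) = (L : (Fin d → ℝ) →ₗ[ℝ] (Fin d → ℝ)) from rfl,
    Measure.addHaar_image_linearMap]
  simp [hdet]

/-- A tiling of space by a linear image of a union of lattice cubes gives a periodic one, when
tilings of the lattice by the corners do. -/
theorem periodic_of_cubes {F : Finset (Fin d → ℤ)}
    (hper : ∀ A : Set (Fin d → ℤ), Tiles A F → ∃ (A' : Set (Fin d → ℤ)) (P : ℤ), 0 < P ∧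
      Tiles A' F ∧ ∀ y w, (y + P • w ∈ A' ↔ y ∈ A'))
    (L : (Fin d → ℝ) ≃ₗ[ℝ] (Fin d → ℝ)) {A : Set (Fin d → ℝ)}
    (hcov : ∀ᵐ x, ∃ a ∈ A, x - a ∈ L '' cubes F)
    (hnull : ∀ a ∈ A, ∀ b ∈ A, a ≠ b → volume ((a +ᵥ L '' cubes F) ∩ (b +ᵥ L '' cubes F)) = 0) :
    ∃ (A' : Set (Fin d → ℝ)) (P : ℤ), 0 < P ∧ (∀ x, ∃ a ∈ A', x - a ∈ L '' cubes F) ∧
      (∀ a ∈ A', ∀ b ∈ A', a ≠ b → volume ((a +ᵥ L '' cubes F) ∩ (b +ᵥ L '' cubes F)) = 0) ∧
      ∀ (w : Fin d → ℤ) a, (a + L (fun k => ((P * w k : ℤ) : ℝ)) ∈ A' ↔ a ∈ A') := by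
  classical
  set B : Set (Fin d → ℝ) := L.symm '' A with hB
  have hBnull : ∀ a ∈ B, ∀ b ∈ B, a ≠ b → volume ((a +ᵥ cubes F) ∩ (b +ᵥ cubes F)) = 0 := by
    rintro _ ⟨a, ha, rfl⟩ _ ⟨b, hb, rfl⟩ hne
    have := hnull a ha b hb fun e => hne (congrArg L.symm e)
    rwa [show a +ᵥ L '' cubes F = L '' (L.symm a +ᵥ cubes F) by
        rw [← vadd_linear_image, L.apply_symm_apply],
      show b +ᵥ L '' cubes F = L '' (L.symm b +ᵥ cubes F) by
        rw [← vadd_linear_image, L.apply_symm_apply],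
      ← Set.image_inter L.injective, null_linear_image] at this
  have hBcov : volume {x | ¬∃ a ∈ B, x - a ∈ cubes F} = 0 := by
    rw [← null_linear_image L]
    refine measure_mono_null ?_ (ae_iff.1 hcov)
    rintro _ ⟨x, hx, rfl⟩ ⟨a, ha, z, hz, e⟩
    refine hx ⟨L.symm a, ⟨a, ha, rfl⟩, ?_⟩
    have : x - L.symm a = z := L.injective (by rw [map_sub, L.apply_symm_apply, e])
    rwa [this]
  rcases F.eq_empty_or_nonempty with hF | hF
  · exfalso
    have : {x : Fin d → ℝ | ¬∃ a ∈ B, x - a ∈ cubes F} = Set.univ := by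
      ext x; simp [cubes, hF]
    rw [this, Measure.measure_univ_eq_zero] at hBcov
    exact NeZero.ne _ hBcov
  -- the translation set is countable
  have hBc : B.Countable := by
    have h := Measure.countable_meas_pos_of_disjoint_iUnion₀
      (μ := (volume : Measure (Fin d → ℝ))) (As := fun a : B => (a : Fin d → ℝ) +ᵥ cubes F)
      (fun a => ((measurable_cubes F).const_vadd (a : Fin d → ℝ)).nullMeasurableSet)
      (fun a b hab => hBnull a a.2 b b.2 fun e => hab (Subtype.ext e))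
    have huniv : {a : B | 0 < volume ((a : Fin d → ℝ) +ᵥ cubes F)} = Set.univ :=
      Set.eq_univ_of_forall fun a => by
        show 0 < volume ((a : Fin d → ℝ) +ᵥ cubes F)
        rw [measure_vadd]; exact volume_cubes_pos hF
    rw [huniv] at h
    have := h.image (fun a : B => (a : Fin d → ℝ))
    rwa [Set.image_univ, Subtype.range_coe] at this
  -- a generic point
  set N : Set (Fin d → ℝ) := {x | ¬∃ a ∈ B, x - a ∈ cubes F} ∪
    (⋃ a ∈ B, ⋃ b ∈ B, ⋃ (_ : a ≠ b), (a +ᵥ cubes F) ∩ (b +ᵥ cubes F)) ∪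
    ⋃ a ∈ B, a +ᵥ grid d with hN
  have hN0 : volume N = 0 := by
    refine measure_union_null (measure_union_null hBcov ?_) ?_
    · refine (measure_biUnion_null_iff hBc).2 fun a ha => (measure_biUnion_null_iff hBc).2
        fun b hb => measure_iUnion_null fun hab => hBnull a ha b hb hab
    · exact (measure_biUnion_null_iff hBc).2 fun a _ => by rw [measure_vadd, volume_grid]
  obtain ⟨x₀, hx₀⟩ : ∃ x₀, ∀ n : Fin d → ℤ, x₀ + (fun k => (n k : ℝ)) ∉ N := by
    by_contra hno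
    push Not at hno
    have huniv : (Set.univ : Set (Fin d → ℝ)) =
        ⋃ n : Fin d → ℤ, (fun x => x + fun k => (n k : ℝ)) ⁻¹' N := by
      ext x; simpa using hno x
    have : volume (Set.univ : Set (Fin d → ℝ)) = 0 := by
      rw [huniv]
      refine measure_iUnion_null fun n => ?_
      rw [measure_preimage_add_right, hN0]
    exact NeZero.ne _ (Measure.measure_univ_eq_zero.1 this)
  set T : Set (Fin d → ℤ) := {z | ∃ a ∈ B, ∀ k, ⌈a k - x₀ k⌉ = z k} with hT
  have hTiles : Tiles T F := by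
    intro n
    set x := x₀ + fun k => (n k : ℝ) with hx
    have hxN := hx₀ n
    simp only [hN, ← hx, Set.mem_union, not_or, Set.mem_ofPred_eq, not_not] at hxN
    obtain ⟨⟨⟨a, ha, f, hf, hfx⟩, hover⟩, hgrid⟩ := hxN
    have hstrict : ∀ k, (f k : ℝ) < x k - a k ∧ x k - a k < f k + 1 := fun k => by
      have hg : ∀ z : ℤ, x k - a k ≠ z := fun z hz => hgrid
        (Set.mem_iUnion₂.2 ⟨a, ha, Set.mem_vadd_set.2 ⟨x - a, ⟨k, z, hz⟩, by simp⟩⟩)
      refine ⟨lt_of_le_of_ne (hfx k).1 fun e => hg _ e.symm,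
        lt_of_le_of_ne (hfx k).2 fun e => hg (f k + 1) (by rw [Int.cast_add, Int.cast_one]; exact e)⟩
    refine ⟨f, ⟨hf, a, ha, fun k => ?_⟩, ?_⟩
    · rw [Int.ceil_eq_iff]
      have := hstrict k
      simp only [x, Pi.add_apply] at this
      simp only [Pi.sub_apply, Int.cast_sub]
      constructor <;> linarith
    · rintro f' ⟨hf', b, hb, hbk⟩
      have hbm : x - b ∈ cubes F := ⟨f', hf', fun k => by
        have := Int.ceil_eq_iff.1 (hbk k)
        simp only [Pi.sub_apply, Int.cast_sub] at this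
        simp only [x, Pi.add_apply, Pi.sub_apply]
        constructor <;> linarith [this.1, this.2]⟩
      have hab : a = b := by
        by_contra hne
        refine hover ?_
        simp only [Set.mem_iUnion]
        refine ⟨a, ha, b, hb, hne, ?_, ?_⟩
        · rw [← preimage_sub]; exact ⟨f, hf, hfx⟩
        · rw [← preimage_sub]; exact hbm
      subst hab
      funext k
      have h1 := Int.ceil_eq_iff.1 (hbk k)
      have h2 := hstrict k
      simp only [x, Pi.add_apply] at h2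
      simp only [Pi.sub_apply, Int.cast_sub] at h1
      have h3 : ((f' k : ℤ) : ℝ) < (f k : ℝ) + 1 := by linarith
      have h4 : ((f k : ℤ) : ℝ) < (f' k : ℝ) + 1 := by linarith
      norm_cast at h3 h4
      omega
  obtain ⟨T', P, hP, hT', hTP⟩ := hper T hTiles
  let ι : (Fin d → ℤ) → Fin d → ℝ := fun z k => (z k : ℝ)
  have hι : Function.Injective ι := fun z z' e => funext fun k => by
    have := congrFun e k
    simpa [ι] using this
  refine ⟨(fun z => L (ι z)) '' T', P, hP, fun x => ?_, ?_, fun w a => ?_⟩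
  · obtain ⟨y, rfl⟩ := L.surjective x
    obtain ⟨f, ⟨hf, hfT⟩, -⟩ := hT' fun k => ⌊y k⌋
    refine ⟨_, ⟨_, hfT, rfl⟩, y - ι ((fun k => ⌊y k⌋) - f), ⟨f, hf, fun k => ?_⟩, map_sub _ _ _⟩
    simp only [ι, Pi.sub_apply, Int.cast_sub]
    constructor <;> linarith [Int.floor_le (y k), Int.lt_floor_add_one (y k)]
  · rintro _ ⟨z, hz, rfl⟩ _ ⟨z', hz', rfl⟩ hne
    rw [vadd_linear_image, vadd_linear_image, ← Set.image_inter L.injective, null_linear_image]
    refine measure_mono_null ?_ (volume_grid d)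
    rintro x ⟨h1, h2⟩
    rw [← preimage_sub] at h1 h2
    obtain ⟨f, hf, hfx⟩ := h1
    obtain ⟨g, hg, hgx⟩ := h2
    by_contra hx
    simp only [grid, Set.mem_ofPred_eq, not_exists] at hx
    have key : ∀ (c : Fin d → ℤ) (f : Fin d → ℤ),
        (∀ k, (f k : ℝ) ≤ (x - ι c) k ∧ (x - ι c) k ≤ f k + 1) →
        (fun k => ⌊x k⌋) - f = c := fun c f h => funext fun k => by
      have h1 := (h k).1
      have h2 := (h k).2
      simp only [ι, Pi.sub_apply] at h1 h2
      have h3 : x k < ((c k + f k + 1 : ℤ) : ℝ) := lt_of_le_of_ne (by push_cast; linarith) (hx k _)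
      have h4 : ⌊x k⌋ = c k + f k := Int.floor_eq_iff.2 (by push_cast at h3 ⊢; constructor <;> linarith)
      simp only [Pi.sub_apply, h4]; ring
    obtain ⟨f₀, hf₀, hu⟩ := hT' fun k => ⌊x k⌋
    refine hne (congrArg (fun z => L (ι z)) ?_)
    have e1 := key z f hfx
    have e2 := key z' g hgx
    rw [← e1, ← e2, hu f ⟨hf, e1.symm ▸ hz⟩, hu g ⟨hg, e2.symm ▸ hz'⟩]
  · constructor
    · rintro ⟨z, hz, e⟩
      refine ⟨z + P • -w, (hTP z (-w)).2 hz, ?_⟩
      simp only at e ⊢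
      rw [show ι (z + P • -w) = ι z - fun k => ((P * w k : ℤ) : ℝ) by
        funext k; simp [ι, sub_eq_add_neg], map_sub, e, add_sub_cancel_right]
    · rintro ⟨z, hz, rfl⟩
      refine ⟨z + P • w, (hTP z w).2 hz, ?_⟩
      simp only
      rw [← map_add]
      refine congrArg L (funext fun k => ?_)
      simp [ι]

end Vale.Agent.P043.Space.Masks
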