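import Mathlib
import Vale.Agent.P043.Space.Masks.Defs

/-!
Helper for P043: dilations of a tile prime to its size tile with the same translations, so the
masks are only needed at roots of unity whose order involves the primes of the size.
-/

namespace Vale.Agent.P043.Space.Masks

open Finset

variable {d : ℕ}

/-- The dilated tile. -/
def scale (s : ℕ) (F : Finset (Fin d → ℤ)) : Finset (Fin d → ℤ) := F.image fun g => s • g

theorem scale_inj {s : ℕ} (hs : 0 < s) : Function.Injective fun g : Fin d → ℤ => s • g :=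
  fun a b e => funext fun k => by
    have := congrFun e k
    simp only [Pi.smul_apply, nsmul_eq_mul] at this
    exact mul_left_cancel₀ (by exact_mod_cast hs.ne') this

theorem card_scale {s : ℕ} (hs : 0 < s) (F : Finset (Fin d → ℤ)) : (scale s F).card = F.card :=
  card_image_of_injective F (scale_inj hs)

/-- A dilation by a prime not dividing the size tiles with the same translations. -/
theorem tiles_scale_prime {A : Set (Fin d → ℤ)} {F : Finset (Fin d → ℤ)} (hA : Tiles A F) {p : ℕ}
    (hp : p.Prime) (hpn : ¬p ∣ F.card) : Tiles A (scale p F) := by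
  classical
  have := Fact.mk hp
  have hbase : ∀ x, (∑ g : F, (1 : ℤ) * if x - (g : Fin d → ℤ) ∈ A then 1 else 0) = 1 := fun x => by
    obtain ⟨f, ⟨hf, hfA⟩, hu⟩ := hA x
    simp only [one_mul]
    rw [sum_coe_sort F fun g => if x - g ∈ A then (1 : ℤ) else 0, sum_eq_single f, if_pos hfA]
    · exact fun g hg hne => if_neg fun h => hne (hu g ⟨hg, h⟩)
    · exact fun h => absurd hf h
  set h : (Fin d → ℤ) → ℤ := fun x => ∑ g ∈ F, if x - p • g ∈ A then 1 else 0 with hdef
  have hpos : ∀ x, 1 ≤ h x := fun x => by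
    have h0 : 0 ≤ h x := sum_nonneg fun g _ => by split_ifs <;> norm_num
    refine lt_of_le_of_ne h0 fun e => ?_
    have := Rows.sum_dilate_prime p (fun _ : F => (1 : ℤ)) (fun g => (g : Fin d → ℤ))
      (fun y => if y ∈ A then 1 else 0) 1 hbase x
    simp only [one_mul] at this
    rw [sum_coe_sort F fun g => if x - p • g ∈ A then (1 : ℤ) else 0, show (∑ g ∈ F,
      if x - p • g ∈ A then (1 : ℤ) else 0) = h x from rfl, ← e] at this
    refine one_ne_zero (α := ZMod p) ?_
    rw [Int.cast_zero] at this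
    rw [this]
    simp only [sum_const, card_univ, Fintype.card_coe, nsmul_eq_mul, mul_one, Int.cast_natCast,
      Int.cast_one]
    rw [ZMod.pow_card_sub_one_eq_one]
    rwa [Ne, ZMod.natCast_eq_zero_iff]
  have htot : ∀ x, ∑ f ∈ F, h (x - f) = F.card := fun x => by
    rw [hdef, sum_comm, card_eq_sum_ones, Nat.cast_sum]
    refine sum_congr rfl fun g _ => ?_
    have := hbase (x - p • g)
    simp only [one_mul] at this
    rw [sum_coe_sort F fun f => if x - p • g - f ∈ A then (1 : ℤ) else 0] at this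
    rw [Nat.cast_one]
    refine (sum_congr rfl fun f _ => ?_).trans this
    rw [sub_right_comm]
  intro x
  obtain ⟨f₀, ⟨hf₀, -⟩, -⟩ := hA 0
  have hone : h x = 1 := by
    have e := htot (x + f₀)
    rw [← add_sum_erase F _ hf₀, add_sub_cancel_right] at e
    have h1 : ((F.erase f₀).card : ℤ) ≤ ∑ f ∈ F.erase f₀, h (x + f₀ - f) := by
      refine le_trans (le_of_eq ?_) (sum_le_sum fun f _ => hpos (x + f₀ - f))
      simp
    rw [card_erase_of_mem hf₀, Nat.cast_sub (card_pos.2 ⟨f₀, hf₀⟩)] at h1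
    push_cast at h1
    linarith [hpos x]
  have hcard : (F.filter fun g => x - p • g ∈ A).card = 1 := by
    have : ((F.filter fun g => x - p • g ∈ A).card : ℤ) = 1 := by
      rw [← hone, hdef]; simp [sum_boole]
    exact_mod_cast this
  obtain ⟨g, hg⟩ := card_eq_one.1 hcard
  have hmem : g ∈ F.filter fun g => x - p • g ∈ A := by rw [hg]; exact mem_singleton_self g
  refine ⟨p • g, ⟨mem_image_of_mem _ (mem_filter.1 hmem).1, (mem_filter.1 hmem).2⟩, ?_⟩
  rintro y ⟨hy, hyA⟩
  obtain ⟨g', hg', rfl⟩ := mem_image.1 hy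
  have : g' ∈ F.filter fun g => x - p • g ∈ A := mem_filter.2 ⟨hg', hyA⟩
  rw [hg, mem_singleton] at this
  rw [this]

/-- Dilations prime to the size tile with the same translations. -/
theorem tiles_scale {A : Set (Fin d → ℤ)} {F : Finset (Fin d → ℤ)} (hA : Tiles A F) (s : ℕ)
    (hs : 0 < s) (hsn : Nat.Coprime s F.card) : Tiles A (scale s F) := by
  induction s using Nat.recOnMul generalizing F with
  | zero => exact absurd hs (lt_irrefl 0)
  | one => simpa [scale] using hA
  | prime p hp => exact tiles_scale_prime hA hp (hp.coprime_iff_not_dvd.1 hsn)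
  | mul a b iha ihb =>
    obtain ⟨ha, hb⟩ : 0 < a ∧ 0 < b := CanonicallyOrderedAdd.mul_pos.1 hs
    have h1 := ihb hA hb (Nat.Coprime.coprime_mul_left hsn)
    have h2 := iha h1 ha (by rw [card_scale hb]; exact Nat.Coprime.coprime_mul_right hsn)
    have e : scale a (scale b F) = scale (a * b) F := by
      rw [scale, scale, scale, image_image]
      exact image_congr fun g _ => by simp [mul_smul]
    rwa [e] at h2

/-- A modulus splits into a part prime to `n` and one with primes dividing `n`. -/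
theorem exists_split_modulus (n : ℕ) {M : ℕ} (hM : 0 < M) :
    ∃ s k : ℕ, 0 < s ∧ 0 < k ∧ M = s * k ∧ Nat.Coprime s n ∧
      ∀ p : ℕ, p.Prime → p ∣ k → p ∣ n := by
  induction M using Nat.recOnMul with
  | zero => exact absurd hM (lt_irrefl 0)
  | one => exact ⟨1, 1, one_pos, one_pos, rfl, Nat.coprime_one_left n,
      fun p hp h => absurd h hp.not_dvd_one⟩
  | prime p hp =>
    by_cases h : p ∣ n
    · exact ⟨1, p, one_pos, hp.pos, (one_mul p).symm, Nat.coprime_one_left n,
        fun q hq hd => (Nat.prime_dvd_prime_iff_eq hq hp).1 hd ▸ h⟩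
    · exact ⟨p, 1, hp.pos, one_pos, (mul_one p).symm, hp.coprime_iff_not_dvd.2 h,
        fun q hq hd => absurd hd hq.not_dvd_one⟩
  | mul a b iha ihb =>
    obtain ⟨ha, hb⟩ : 0 < a ∧ 0 < b := CanonicallyOrderedAdd.mul_pos.1 hM
    obtain ⟨s, k, hs, hk, rfl, hsn, hkn⟩ := iha ha
    obtain ⟨s', k', hs', hk', rfl, hsn', hkn'⟩ := ihb hb
    exact ⟨s * s', k * k', by positivity, by positivity, by ring, hsn.mul_left hsn',
      fun p hp hd => (hp.dvd_mul.1 hd).elim (hkn p hp) (hkn' p hp)⟩

/-- For every modulus some dilation prime to the size has non-vanishing masks. -/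
theorem exists_scale_mask {F : Finset (Fin d → ℤ)} (hF : MaskCond F) {a b : Fin d → ℤ}
    (hab : Indep a b) {M : ℕ} (hM : 0 < M) :
    ∃ s : ℕ, 0 < s ∧ Nat.Coprime s F.card ∧ ∀ r : Fin d → ℤ, ∃ f ∈ scale s F,
      ∑ g ∈ fib (scale s F) (ker2 a b) f, ee ((dot r g : ℝ) / M) ≠ 0 := by
  classical
  obtain ⟨s, k, hs, hk, rfl, hsn, hkn⟩ := exists_split_modulus F.card hM
  refine ⟨s, hs, hsn, fun r => ?_⟩
  obtain ⟨f, hf, hne⟩ := hF a b hab k r hk hkn
  refine ⟨s • f, mem_image_of_mem _ hf, fun h0 => hne ?_⟩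
  have hs' : (s : ℤ) ≠ 0 := by exact_mod_cast hs.ne'
  have key : ∀ g₀, s • g₀ - s • f ∈ ker2 a b ↔ g₀ - f ∈ ker2 a b := fun g₀ => by
    rw [← smul_sub]
    simp only [ker2, Set.mem_ofPred_eq, ← natCast_zsmul, dot_smul, mul_eq_zero, hs', false_or]
  have e : fib (scale s F) (ker2 a b) (s • f) = (fib F (ker2 a b) f).image (s • ·) := by
    ext g
    simp only [mem_fib, scale, mem_image]
    constructor
    · rintro ⟨⟨g₀, hg₀, rfl⟩, hk⟩
      exact ⟨g₀, ⟨hg₀, (key g₀).1 hk⟩, rfl⟩
    · rintro ⟨g₀, ⟨hg₀, hk⟩, rfl⟩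
      exact ⟨⟨g₀, hg₀, rfl⟩, (key g₀).2 hk⟩
  rw [e, sum_image fun a _ b _ e => scale_inj hs e] at h0
  rw [← h0]
  refine sum_congr rfl fun g _ => congrArg ee ?_
  rw [← natCast_zsmul, dot_smul]
  have : (s : ℝ) ≠ 0 := by exact_mod_cast hs.ne'
  push_cast
  field_simp

end Vale.Agent.P043.Space.Masks
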