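import Mathlib
import Vale.Agent.P043.Space.Masks.Defs
import Vale.Agent.P043.Space.Dir3

/-!
Helper for P043: lone fibres and good directions imply the fibre-mask condition.
-/

namespace Vale.Agent.P043.Space.Masks

open Finset

variable {d : ℕ}

theorem ee_ne_zero (t : ℝ) : ee t ≠ 0 := fun h => by simpa [h] using norm_ee t

/-- A point alone in its fibre of two forms has a mask without zeros. -/
theorem mask_lone {F : Finset (Fin d → ℤ)} {a b h : Fin d → ℤ} (hh : h ∈ F)
    (hl : ∀ g ∈ F, g ≠ h → dot a g ≠ dot a h ∨ dot b g ≠ dot b h) (θ : (Fin d → ℤ) → ℝ) :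
    ∑ g ∈ fib F (ker2 a b) h, ee (θ g) ≠ 0 := by
  have : fib F (ker2 a b) h = {h} := by
    ext g
    rw [mem_fib, mem_singleton]
    refine ⟨fun ⟨hg, hker⟩ => ?_, fun e => by subst e; exact ⟨hh, by simp [ker2]⟩⟩
    simp only [ker2, Set.mem_ofPred_eq, map_sub, sub_eq_zero] at hker
    by_contra hne
    exact (hl g hg hne).elim (fun h => h hker.1) fun h => h hker.2
  rw [this, sum_singleton]
  exact ee_ne_zero _

/-- Lone fibres imply the mask condition. -/
theorem maskCond_of_lone {F : Finset (Fin d → ℤ)}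
    (hF : ∀ a b : Fin d → ℤ, Indep a b →
      ∃ h ∈ F, ∀ g ∈ F, g ≠ h → dot a g ≠ dot a h ∨ dot b g ≠ dot b h) : MaskCond F := by
  intro a b hab M r _ _
  obtain ⟨h, hh, hl⟩ := hF a b hab
  exact ⟨h, hh, mask_lone hh hl _⟩

/-- The cross product. -/
def cross (a b : Fin 3 → ℤ) : Fin 3 → ℤ :=
  ![a 1 * b 2 - a 2 * b 1, a 2 * b 0 - a 0 * b 2, a 0 * b 1 - a 1 * b 0]

theorem dot_cross (a b : Fin 3 → ℤ) : dot a (cross a b) = 0 ∧ dot b (cross a b) = 0 := by
  constructor <;> simp [dot_apply, cross, Fin.sum_univ_three] <;> ring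

theorem cross_ne_zero {a b : Fin 3 → ℤ} (h : Indep a b) : cross a b ≠ 0 := by
  obtain ⟨c, s, t, hc, h1, h2, h3, h4⟩ := h.dual
  intro e
  have e0 := congrFun e 0
  have e1 := congrFun e 1
  have e2 := congrFun e 2
  simp [cross, sub_eq_zero] at e0 e1 e2
  have key : dot a s * dot b t = dot a t * dot b s := by
    simp only [dot_apply, Fin.sum_univ_three]
    linear_combination (s 1 * t 2 - s 2 * t 1) * e0 + (s 2 * t 0 - s 0 * t 2) * e1 +
      (s 0 * t 1 - s 1 * t 0) * e2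
  rw [h1, h2, h3, h4, zero_mul, mul_self_eq_zero] at key
  exact hc.ne' key

theorem par_of_ker2 {a b y : Fin 3 → ℤ} (hy : y ∈ ker2 a b) : Par y (cross a b) := by
  obtain ⟨ha, hb⟩ := hy
  simp only [dot_apply, Fin.sum_univ_three] at ha hb
  intro i j
  fin_cases i <;> fin_cases j <;> simp [cross] <;> grind

theorem ker2_of_par {a b y : Fin 3 → ℤ} (h : Indep a b) (hy : Par y (cross a b)) :
    y ∈ ker2 a b := by
  obtain ⟨i, hi⟩ := Function.ne_iff.1 (cross_ne_zero h)
  have key : ∀ c : Fin 3 → ℤ, dot c (cross a b) = 0 → dot c y = 0 := fun c hc => by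
    have e : cross a b i • y = y i • cross a b := by
      funext j; simpa [mul_comm] using (hy i j).symm
    have := congrArg (dot c) e
    rw [dot_smul, dot_smul, hc, mul_zero] at this
    exact (mul_eq_zero.1 this).resolve_left hi
  exact ⟨key a (dot_cross a b).1, key b (dot_cross a b).2⟩

/-- Good directions imply the mask condition. -/
theorem maskCond_of_goodDirs {F : Finset (Fin 3 → ℤ)} (hF : GoodDirs F) : MaskCond F := by
  intro a b hab M r hM _
  rcases hF _ (cross_ne_zero hab) with ⟨h, hh, hl⟩ | ⟨h₁, h₁', h₂, h₂', hp₁, hp₂, j, j', hj, hj', he⟩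
  · refine ⟨h, hh, mask_lone hh (fun g hg hne => ?_) _⟩
    by_contra hno
    simp only [not_or, not_not] at hno
    exact hl g hg hne (par_of_ker2 ⟨by simp [hno.1], by simp [hno.2]⟩)
  have hsum : ∀ {h h'}, PairDir F (cross a b) h h' →
      ∑ g ∈ fib F (ker2 a b) h, ee ((dot r g : ℝ) / M) = 0 →
      ∃ k : ℤ, (dot r (h' - h) : ℝ) / M = k + 1 / 2 := by
    rintro h h' ⟨hh, hh', hne, hpar, honly⟩ h0
    have hfib : fib F (ker2 a b) h = {h, h'} := by
      ext g
      rw [mem_fib, mem_insert, mem_singleton]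
      refine ⟨fun ⟨hg, hk⟩ => ?_, ?_⟩
      · by_contra hno
        simp only [not_or] at hno
        exact honly g hg hno.1 hno.2 (par_of_ker2 hk)
      · rintro (rfl | rfl)
        · exact ⟨hh, by simp [ker2]⟩
        · exact ⟨hh', ker2_of_par hab hpar⟩
    rw [hfib, sum_pair hne.symm] at h0
    have hhalf : ee (1 / 2) = -1 := by
      rw [ee, show ((2 * Real.pi * (1 / 2) : ℝ) : ℂ) = (Real.pi : ℂ) by push_cast; ring,
        Complex.exp_pi_mul_I]
    have : ee ((dot r (h' - h) : ℝ) / M - 1 / 2) = 1 := by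
      refine mul_right_cancel₀ (ee_ne_zero (1 / 2 + (dot r h : ℝ) / M)) ?_
      rw [one_mul, ← ee_add, ee_add (1 / 2), hhalf, map_sub, Int.cast_sub,
        show ((dot r h' : ℝ) - dot r h) / M - 1 / 2 + (1 / 2 + (dot r h : ℝ) / M)
          = (dot r h' : ℝ) / M by ring]
      linear_combination h0
    obtain ⟨k, hk⟩ := ee_eq_one_iff.1 this
    exact ⟨k, by linarith⟩
  by_cases s₁ : ∑ g ∈ fib F (ker2 a b) h₁, ee ((dot r g : ℝ) / M) = 0
  swap; · exact ⟨h₁, hp₁.1, s₁⟩
  refine ⟨h₂, hp₂.1, fun s₂ => ?_⟩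
  obtain ⟨k₁, hk₁⟩ := hsum hp₁ s₁
  obtain ⟨k₂, hk₂⟩ := hsum hp₂ s₂
  have e := congrArg (fun v => ((dot r v : ℤ) : ℝ) / M) he
  simp only [dot_smul, Int.cast_mul, mul_div_assoc, hk₁, hk₂] at e
  have : j * (2 * k₁ + 1) = j' * (2 * k₂ + 1) := by
    have e' : ((j * (2 * k₁ + 1) : ℤ) : ℝ) = ((j' * (2 * k₂ + 1) : ℤ) : ℝ) := by
      push_cast; linarith
    exact_mod_cast e'
  refine Int.not_even_iff_odd.2 (Odd.mul hj (odd_two_mul_add_one k₁)) ?_
  rw [this]
  exact hj'.mul_right _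

end Vale.Agent.P043.Space.Masks
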