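import Mathlib
import Vale.Agent.P043.Space.Masks.Defs

/-!
Helper for P043: if at every character some fibre mask does not vanish, a periodic function is a
rational combination of translates of its fibre sums.
-/

namespace Vale.Agent.P043.Space.Masks

open Finset
open Rows (IsI)

variable {d : ℕ}

/-- Reduction modulo `M`. -/
def red (M : ℕ) : (Fin d → ℤ) →+ (Fin d → ZMod M) where
  toFun w k := (w k : ZMod M)
  map_zero' := by funext k; simp
  map_add' a b := by funext k; simp

theorem ee_sum {ι : Type*} (s : Finset ι) (f : ι → ℝ) : ee (∑ i ∈ s, f i) = ∏ i ∈ s, ee (f i) := by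
  induction s using Finset.cons_induction with
  | empty => simp [ee]
  | cons a s ha ih => rw [sum_cons, prod_cons, ee_add, ih]

/-- The characters modulo `M` separate the residues. -/
theorem sum_char {M : ℕ} (hM : 0 < M) (w : Fin d → ℤ) :
    ∑ r : Fin d → Fin M, ee ((dot (fun k => ((r k : ℕ) : ℤ)) w : ℝ) / M) =
      if red M w = 0 then (M : ℂ) ^ d else 0 := by
  classical
  have hMR : (M : ℝ) ≠ 0 := by positivity
  have h1 : ∀ r : Fin d → Fin M, ee ((dot (fun k => ((r k : ℕ) : ℤ)) w : ℝ) / M) =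
      ∏ k, ee ((w k : ℝ) / M) ^ (r k : ℕ) := fun r => by
    rw [dot_apply, Int.cast_sum, sum_div, ee_sum]
    refine prod_congr rfl fun k _ => ?_
    rw [← ee_nat_mul]; push_cast; ring_nf
  have hone : ∀ k, ee ((w k : ℝ) / M) = 1 ↔ (w k : ZMod M) = 0 := fun k => by
    rw [ee_eq_one_iff, ZMod.intCast_zmod_eq_zero_iff_dvd]
    constructor
    · rintro ⟨z, hz⟩
      refine ⟨z, ?_⟩
      rw [div_eq_iff hMR] at hz
      rw [mul_comm]
      exact_mod_cast hz
    · rintro ⟨z, hz⟩
      exact ⟨z, by rw [hz, div_eq_iff hMR]; push_cast; ring⟩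
  simp only [h1]
  rw [← Fintype.prod_sum fun k (i : Fin M) => ee ((w k : ℝ) / M) ^ (i : ℕ)]
  by_cases h0 : red M w = 0
  · rw [if_pos h0]
    simp [fun k => (hone k).2 (congrFun h0 k)]
  · rw [if_neg h0]
    obtain ⟨k, hk⟩ : ∃ k, (w k : ZMod M) ≠ 0 := by
      by_contra hno
      push Not at hno
      exact h0 (funext hno)
    refine prod_eq_zero (mem_univ k) ?_
    rw [Fin.sum_univ_eq_sum_range fun i => ee ((w k : ℝ) / M) ^ i,
      geom_sum_eq fun e => hk ((hone k).1 e), ← ee_nat_mul, mul_div_cancel₀ _ hMR,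
      ee_eq_one_iff.2 ⟨w k, rfl⟩]
    simp

/-- A periodic function is recovered rationally from its fibre sums. -/
theorem exists_invert (F : Finset (Fin d → ℤ)) (Λ : AddSubgroup (Fin d → ℤ))
    (hsat : ∀ (k : ℤ) w, k ≠ 0 → k • w ∈ Λ → w ∈ Λ)
    {M : ℕ} (hM : 0 < M)
    (hmask : ∀ r : Fin d → ℤ, ∃ f ∈ F, ∑ g ∈ fib F Λ f, ee ((dot r g : ℝ) / M) ≠ 0) :
    ∃ (s : Finset (Fin d → ℤ)) (c : (Fin d → ℤ) → (Fin d → ℤ) → ℚ),
      ∀ φ : (Fin d → ℤ) → ℝ, (∀ w ∈ Λ, (M : ℤ) • w ∈ per φ) → ∀ x,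
        φ x = ∑ f ∈ F, ∑ y ∈ s, (c f y : ℝ) * ∑ g ∈ fib F Λ f, φ (x - y - (g - f)) := by
  classical
  have : NeZero M := ⟨hM.ne'⟩
  let R := ↥(Λ.map (red (d := d) M))
  have : Fintype R := Fintype.ofFinite _
  choose lift hlift hred using fun ρ : R => AddSubgroup.mem_map.1 ρ.2
  let res : (Fin d → ℤ) → R := fun w =>
    if h : w ∈ Λ then ⟨red M w, AddSubgroup.mem_map_of_mem _ h⟩ else 0
  have hres : ∀ w ∈ Λ, (res w : Fin d → ZMod M) = red M w := fun w hw => by simp [res, dif_pos hw]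
  have hres_lift : ∀ ρ, res (lift ρ) = ρ := fun ρ => Subtype.ext (by rw [hres _ (hlift ρ), hred])
  have hfib : ∀ f g, g ∈ fib F Λ f → g - f ∈ Λ := fun f g hg => (mem_fib.1 hg).2
  let δ : (Fin d → ℤ) → (Fin d → ℤ) → R := fun f g => res (g - f)
  -- the masks act injectively
  let B : (R → ℚ) →ₗ[ℚ] (F → R → ℚ) :=
    { toFun := fun v f ρ => ∑ g ∈ fib F Λ f, v (ρ + δ f g)
      map_add' := fun v v' => by funext f ρ; simp [sum_add_distrib]
      map_smul' := fun t v => by funext f ρ; simp [mul_sum] }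
  let T : (R → ℚ) →ₗ[ℚ] (R → ℚ) :=
    { toFun := fun v σ => ∑ f : F, ∑ g ∈ fib F Λ f, B v f (σ - δ f g)
      map_add' := fun v v' => by funext σ; simp [sum_add_distrib]
      map_smul' := fun t v => by funext σ; simp [mul_sum] }
  have hinj : Function.Injective T := by
    rw [← LinearMap.ker_eq_bot, LinearMap.ker_eq_bot']
    intro v hv
    have hsq : ∑ f : F, ∑ ρ, B v f ρ ^ 2 = 0 := by
      have h0 : ∑ σ, v σ * T v σ = 0 := by simp [hv]
      rw [← h0]
      simp only [T, LinearMap.coe_mk, AddHom.coe_mk, mul_sum]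
      conv_rhs => rw [sum_comm]
      refine sum_congr rfl fun f _ => ?_
      conv_rhs => rw [sum_comm]
      have hstep : ∀ g, ∑ σ, v σ * B v f (σ - δ f g) = ∑ ρ, v (ρ + δ f g) * B v f ρ := fun g =>
        (Fintype.sum_equiv (Equiv.addRight (δ f g)) _ _ fun ρ => by simp).symm
      rw [sum_congr rfl fun g _ => hstep g]
      conv_rhs => rw [sum_comm]
      refine sum_congr rfl fun ρ _ => ?_
      rw [← sum_mul, sq]
      rfl
    have hB : ∀ f : F, ∀ ρ, ∑ g ∈ fib F Λ f, v (ρ + δ f g) = 0 := by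
      intro f ρ
      have h1 := (sum_eq_zero_iff_of_nonneg fun f _ => sum_nonneg fun ρ _ => sq_nonneg _).1 hsq f
        (mem_univ _)
      have h2 := (sum_eq_zero_iff_of_nonneg fun ρ _ => sq_nonneg _).1 h1 ρ (mem_univ _)
      exact pow_eq_zero_iff (two_ne_zero) |>.1 h2
    let χ : (Fin d → Fin M) → (Fin d → ℤ) → ℂ := fun r w =>
      ee ((dot (fun k => ((r k : ℕ) : ℤ)) w : ℝ) / M)
    have hcongr : ∀ r a b, red M a = red M b → χ r a = χ r b := by
      intro r a b e
      refine ee_congr ?_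
      have : ∀ k, ∃ z, a k - b k = (M : ℤ) * z := fun k =>
        (ZMod.intCast_eq_intCast_iff_dvd_sub _ _ _).1 (congrFun e k).symm
      choose z hz using this
      refine ⟨dot (fun k => ((r k : ℕ) : ℤ)) z, ?_⟩
      rw [← sub_div, ← Int.cast_sub, ← map_sub, show a - b = (M : ℤ) • z from funext hz, dot_smul]
      push_cast
      field_simp
    have hhat : ∀ r, ∑ ρ, χ r (lift ρ) * (v ρ : ℂ) = 0 := by
      intro r
      obtain ⟨f, hf, hne⟩ := hmask (-fun k => ((r k : ℕ) : ℤ))
      have h1 : ∑ ρ : R, ∑ g ∈ fib F Λ f, χ r (lift ρ) * (v (ρ + δ f g) : ℂ) = 0 := by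
        refine sum_eq_zero fun ρ _ => ?_
        rw [← mul_sum, ← Rat.cast_sum, hB ⟨f, hf⟩ ρ]
        simp
      rw [sum_comm] at h1
      have h2 : ∀ g ∈ fib F Λ f, ∑ ρ : R, χ r (lift ρ) * (v (ρ + δ f g) : ℂ) =
          (ee ((dot (fun k => ((r k : ℕ) : ℤ)) f : ℝ) / M) *
            ee ((dot (-fun k => ((r k : ℕ) : ℤ)) g : ℝ) / M)) *
            ∑ σ, χ r (lift σ) * (v σ : ℂ) := by
        intro g hg
        rw [mul_sum]
        refine Fintype.sum_equiv (Equiv.addRight (δ f g)) _ _ fun ρ => ?_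
        have hd := hfib f g hg
        have e : χ r (lift (ρ + δ f g)) = χ r (lift ρ + (g - f)) := hcongr r _ _ (by
          rw [hred, map_add, hred, ← hres _ hd]; rfl)
        rw [Equiv.coe_addRight, e, ← mul_assoc]
        congr 1
        simp only [χ, ← ee_add]
        congr 1
        simp only [dot_apply, Pi.neg_apply, Pi.add_apply, Pi.sub_apply, mul_add, mul_sub, neg_mul,
          sum_add_distrib, sum_sub_distrib, sum_neg_distrib]
        push_cast
        ring
      rw [sum_congr rfl h2, ← sum_mul, ← mul_sum] at h1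
      exact (mul_eq_zero.1 h1).resolve_left (mul_ne_zero (fun e => by
        simpa [e] using norm_ee ((dot (fun k => ((r k : ℕ) : ℤ)) f : ℝ) / M)) hne)
    funext ρ₀
    have h3 : ∑ r : Fin d → Fin M, ∑ ρ, χ r (lift ρ) * χ r (-lift ρ₀) * (v ρ : ℂ) = 0 :=
      sum_eq_zero fun r _ => by
        rw [sum_congr rfl fun ρ _ => mul_right_comm (χ r (lift ρ)) (χ r (-lift ρ₀)) (v ρ : ℂ),
          ← sum_mul, hhat r, zero_mul]
    rw [sum_comm, sum_eq_single ρ₀] at h3
    · have e : ∀ r, χ r (lift ρ₀) * χ r (-lift ρ₀) = 1 := fun r => by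
        simp only [χ, ← ee_add, map_neg, Int.cast_neg, neg_div, add_neg_cancel]
        exact ee_eq_one_iff.2 Rows.isI_zero
      simp only [e, one_mul, sum_const, card_univ, Fintype.card_fun, Fintype.card_fin,
        nsmul_eq_mul, mul_eq_zero] at h3
      rcases h3 with h | h
      · simp [hM.ne'] at h
      · exact_mod_cast h
    · intro ρ _ hne
      rw [← sum_mul]
      have e : ∀ r, χ r (lift ρ) * χ r (-lift ρ₀) = χ r (lift ρ - lift ρ₀) := fun r => by
        simp only [χ, ← ee_add, map_neg, map_sub]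
        push_cast; ring_nf
      simp only [e, χ, sum_char hM]
      rw [if_neg, zero_mul]
      rw [map_sub, hred, hred, sub_eq_zero]
      exact fun h => hne (Subtype.ext h)
    · simp
  obtain ⟨v, hv⟩ := LinearMap.injective_iff_surjective.1 hinj fun σ => if σ = 0 then 1 else 0
  refine ⟨univ.image lift, fun f y => if h : f ∈ F then B v ⟨f, h⟩ (res y) else 0,
    fun φ hφ x => ?_⟩
  have hper : ∀ a ∈ Λ, ∀ b ∈ Λ, red M a = red M b → φ (x - a) = φ (x - b) := by
    intro a ha b hb e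
    have : ∀ k, ∃ z, b k - a k = (M : ℤ) * z := fun k =>
      (ZMod.intCast_eq_intCast_iff_dvd_sub _ _ _).1 (congrFun e k)
    choose z hz using this
    have hba : b - a = (M : ℤ) • z := funext hz
    have hzΛ : z ∈ Λ := hsat M z (by exact_mod_cast hM.ne') (hba ▸ sub_mem hb ha)
    rw [show x - a = x - b + (M : ℤ) • z by rw [← hba]; abel]
    exact hφ z hzΛ _
  have hlinj : Function.Injective lift := fun a b e => by
    rw [← hres_lift a, e, hres_lift]
  have h4 : φ x = ∑ σ : R, (T v σ : ℝ) * φ (x - lift σ) := by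
    rw [sum_eq_single (0 : R)]
    · simp only [hv, if_pos, Rat.cast_one, one_mul]
      have := hper _ (hlift 0) 0 (zero_mem _) (by rw [hred, map_zero]; rfl)
      rw [this, sub_zero]
    · intro σ _ hσ
      simp [hv, if_neg hσ]
    · simp
  rw [h4, ← sum_coe_sort F]
  simp only [T, LinearMap.coe_mk, AddHom.coe_mk, Rat.cast_sum, sum_mul]
  rw [sum_comm]
  refine sum_congr rfl fun f _ => ?_
  rw [sum_image fun a _ b _ e => hlinj e]
  simp only [dif_pos f.2, hres_lift, mul_sum]
  rw [sum_comm]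
  conv_rhs => rw [sum_comm]
  refine sum_congr rfl fun g hg => ?_
  refine (Fintype.sum_equiv (Equiv.addRight (δ f g)) _ _ fun ρ => ?_).symm
  have hd := hfib f g hg
  rw [Equiv.coe_addRight, show ρ + δ f g - δ f g = ρ by abel, sub_sub x (lift ρ)]
  congr 1
  exact hper _ (add_mem (hlift ρ) hd) _ (hlift _) (by rw [hred, map_add, hred, ← hres _ hd]; rfl)

end Vale.Agent.P043.Space.Masks
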