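import Mathlib
import Vale.Agent.P043.Space.Masks.Average

/-!
Helper for P043: along a fibre, the ranges of two pieces add up to at most one.
-/

namespace Vale.Agent.P043.Space.Masks

open Finset

variable {d m : ℕ}

/-- The fibre sums of two pieces have ranges adding up to at most one. -/
theorem plane_range {F : Finset (Fin d → ℤ)} {A : Set (Fin d → ℤ)} (hA : Tiles A F)
    {V : Fin m → Fin d → ℤ} {L : ℤ} {P : (Fin d → ℤ) → ℝ} {u : Fin m → (Fin d → ℤ) → ℝ}
    (h : Dec A V L P u) {i j : Fin m} (hij : i ≠ j) (f : Fin d → ℤ) :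
    ∃ K : ℤ, 0 < K ∧ ∀ x w w' z z',
      ∑ g ∈ fib F (ker2 (V i) (V j)) f,
        (u i (x + (L * K) • w - (g - f)) - u i (x + (L * K) • w' - (g - f))) +
      ∑ g ∈ fib F (ker2 (V i) (V j)) f,
        (u j (x + (L * K) • z - (g - f)) - u j (x + (L * K) • z' - (g - f))) ≤ 1 := by
  classical
  obtain ⟨c, gen, hc, hgen, hexp⟩ := exists_gens (h.indep i j hij)
  set ws : List (Fin d → ℤ) := List.ofFn fun k => L • gen k with hws
  set φ := meanL ws (ind A) with hφdef
  have hφ : Eqn F φ := eqn_meanL (eqn_ind hA) ws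
  have hM : 0 < (L * c).natAbs := Int.natAbs_pos.2 (mul_pos h.pos hc).ne'
  obtain ⟨ψ, hψ, hψg, -, hψsum⟩ := exists_average_fib hφ (ker2 (V i) (V j)) hM (fun w hw => by
    rw [Int.natAbs_of_nonneg (mul_pos h.pos hc).le]
    exact smul_mem_per_of_ker2 hexp (fun k => mem_per_meanL (bdd_ind A)
      (List.mem_ofFn.2 ⟨k, rfl⟩)) hw) f
  set p := fib F (ker2 (V i) (V j)) f with hp
  have hwk : ∀ l, (l = i ∨ l = j) → ∀ w ∈ ws, w ∈ per (u l) := by
    intro l hl w hw
    obtain ⟨k, rfl⟩ := List.mem_ofFn.1 hw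
    rcases hl with rfl | rfl
    exacts [h.inv _ _ (hgen k).1, h.inv _ _ (hgen k).2]
  have hPB : Bdd P := by
    have := (bdd_ind A).sub (Bdd.sum (s := univ) fun i _ => h.bdd i)
    convert this using 2
    rw [h.eq]; ring
  have hφB : Bdd φ := bdd_of_eqn hφ
  have hφe : ∀ y, φ y = meanL ws P y + ∑ l, meanL ws (u l) y := fun y => by
    rw [hφdef, show ind A = fun z => P z + ∑ l, u l z from funext h.eq,
      meanL_add hPB (Bdd.sum fun l _ => h.bdd l), meanL_sum fun l _ => h.bdd l]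
  have hshper : ∀ {θ : (Fin d → ℤ) → ℝ} {v : Fin d → ℤ} (g : Fin d → ℤ), v ∈ per θ →
      v ∈ per fun x => θ (x - g) := fun {θ v} g hv x => by
    show θ (x + v - g) = θ (x - g)
    rw [add_sub_right_comm, hv]
  obtain ⟨T, hT, hTr⟩ := range_pair (φ := fun x => ∑ g ∈ p, φ (x - (g - f)))
    (Bdd.sum fun g _ => bdd_shift hφB _) (fun x => sum_nonneg fun g _ => (hφ.1 _).1)
    h.indep h.pos (P := fun x => ∑ g ∈ p, meanL ws P (x - (g - f)))
    (u := fun l x => ∑ g ∈ p, meanL ws (u l) (x - (g - f)))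
    (fun w x => sum_congr rfl fun g _ => hshper _ (per_le_meanL hPB ws (h.periodic w)) x)
    (fun l w hw x => sum_congr rfl fun g _ =>
      hshper _ (per_le_meanL (h.bdd l) ws (h.inv l w hw)) x)
    (fun x => by simp only [hφe, sum_add_distrib]; rw [sum_comm])
    (fun l => Bdd.sum fun g _ => bdd_shift ((h.bdd l).meanL ws) _) hij
    (E := F \ p) (h := f) (q := step F * ((L * c).natAbs : ℤ))
    (mul_pos (by simp [step, Nat.factorial_pos]) (by exact_mod_cast hM))
    (fun g => bdd_of_eqn (hψ F hφ g)) (fun g x => ((hψ F hφ g).1 x).1) hψg hψsum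
    (fun g hg h0 h1 => (mem_sdiff.1 hg).2 (mem_fib.2 ⟨(mem_sdiff.1 hg).1, h0, h1⟩))
  refine ⟨T, hT, fun x w w' z z' => ?_⟩
  have h1 := hTr x (L • w) (L • w') (L • z) (L • z')
  simp only [smul_smul, mul_comm T L] at h1
  rw [meanL_eq_self (h.bdd i) (hwk i (.inl rfl)), meanL_eq_self (h.bdd j) (hwk j (.inr rfl))] at h1
  simpa only [sum_sub_distrib] using h1

end Vale.Agent.P043.Space.Masks
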