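import Mathlib
import Vale.Agent.P043.Space.Masks.Classes
import Vale.Agent.P043.Space.Masks.PlaneRange
import Vale.Agent.P043.Space.Masks.Invert
import Vale.Agent.P043.Space.Masks.Dilate

/-!
Helper for P043: under the fibre-mask condition no piece of a recurrent tiling is irrational.
-/

namespace Vale.Agent.P043.Space.Masks

open Finset
open Rows (IsI)

variable {d m : ℕ}

/-- The common kernel as a subgroup. -/
def kerGroup (a b : Fin d → ℤ) : AddSubgroup (Fin d → ℤ) := (dot a).ker ⊓ (dot b).ker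

theorem mem_kerGroup {a b w : Fin d → ℤ} : w ∈ kerGroup a b ↔ w ∈ ker2 a b := Iff.rfl

theorem coe_kerGroup (a b : Fin d → ℤ) : (kerGroup a b : Set (Fin d → ℤ)) = ker2 a b :=
  Set.ext fun _ => mem_kerGroup

theorem isI_sum {α : Type*} {s : Finset α} {f : α → ℝ} (h : ∀ a ∈ s, IsI (f a)) :
    IsI (∑ a ∈ s, f a) := by
  classical
  induction s using Finset.induction_on with
  | empty => simpa using Rows.isI_zero
  | @insert a s ha ih =>
    rw [sum_insert ha]
    exact (h a (mem_insert_self a s)).add (ih fun b hb => h b (mem_insert_of_mem hb))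

/-- Translates by two points of the tile never overlap. -/
theorem ind_add_le {F : Finset (Fin d → ℤ)} {A : Set (Fin d → ℤ)} (hA : Tiles A F)
    {g g' : Fin d → ℤ} (hg : g ∈ F) (hg' : g' ∈ F) (hne : g ≠ g') (y : Fin d → ℤ) :
    ind A (y - g) + ind A (y - g') ≤ 1 := by
  obtain ⟨f, -, hu⟩ := hA y
  by_cases h1 : y - g ∈ A
  · have h2 : y - g' ∉ A := fun h => hne ((hu g ⟨hg, h1⟩).trans (hu g' ⟨hg', h⟩).symm)
    rw [ind_of_notMem h2, add_zero]
    exact (ind_mem_Icc A _).2
  · rw [ind_of_notMem h1, zero_add]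
    exact (ind_mem_Icc A _).2

variable {A : Set (Fin d → ℤ)} {V : Fin m → Fin d → ℤ} {L : ℤ} {P : (Fin d → ℤ) → ℝ}
  {u : Fin m → (Fin d → ℤ) → ℝ}

/-- The fibre sums of the pieces decompose the union of the translates along the fibre. -/
theorem exists_dec_fib {F : Finset (Fin d → ℤ)} (hA : Tiles A F) (h : Dec A V L P u)
    {p : Finset (Fin d → ℤ)} (hp : p ⊆ F) (f : Fin d → ℤ) :
    ∃ B : Set (Fin d → ℤ), Dec B V L (fun x => ∑ g ∈ p, P (x - (g - f)))
      fun l x => ∑ g ∈ p, u l (x - (g - f)) := by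
  classical
  refine ⟨{x | ∃ g ∈ p, x - (g - f) ∈ A}, h.ne, h.indep, h.pos, fun w x => ?_, fun l w hw x => ?_,
    fun x => ?_, fun l => Bdd.sum fun g _ => ?_⟩
  · exact sum_congr rfl fun g _ => by rw [add_sub_right_comm, h.periodic w]
  · exact sum_congr rfl fun g _ => by rw [add_sub_right_comm, h.inv l w hw]
  · rw [Finset.sum_comm (s := univ), ← sum_add_distrib, sum_congr rfl fun g _ => (h.eq _).symm]
    by_cases hx : ∃ g ∈ p, x - (g - f) ∈ A
    · obtain ⟨g₀, hg₀, hg₀A⟩ := hx
      rw [ind_of_mem (show x ∈ {x | ∃ g ∈ p, x - (g - f) ∈ A} from ⟨g₀, hg₀, hg₀A⟩),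
        sum_eq_single g₀ (fun g hg hne => ?_) (fun hn => absurd hg₀ hn), ind_of_mem hg₀A]
      have h1 := ind_add_le hA (hp hg₀) (hp hg) hne.symm (x + f)
      rw [show x + f - g₀ = x - (g₀ - f) by abel, show x + f - g = x - (g - f) by abel,
        ind_of_mem hg₀A] at h1
      linarith [(ind_mem_Icc A (x - (g - f))).1]
    · rw [ind_of_notMem (show x ∉ {x | ∃ g ∈ p, x - (g - f) ∈ A} from hx), sum_eq_zero]
      exact fun g hg => ind_of_notMem fun hm => hx ⟨g, hg, hm⟩
  · exact (h.bdd l).elim fun B hB => ⟨B, fun y => hB _⟩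

/-- The fibre sum of a piece. -/
noncomputable def gam (F : Finset (Fin d → ℤ)) (a b f : Fin d → ℤ) (φ : (Fin d → ℤ) → ℝ)
    (x : Fin d → ℤ) : ℝ := ∑ g ∈ fib F (ker2 a b) f, φ (x - (g - f))

/-- If the fibre sums in a plane have an integral total variation, each of them has one. -/
theorem exists_gam_int {F : Finset (Fin d → ℤ)} (hA : Tiles A F) (h : Dec A V L P u)
    {i j : Fin m} (hij : i ≠ j) :
    ∃ K : ℤ, 0 < K ∧ ∀ f ∈ F, ∀ x (s : Finset (Fin m)), (∀ l ∈ s, InPlane (V i) (V j) (V l)) →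
      (∀ y, IsI (∑ l ∈ s, (gam F (V i) (V j) f (u l) (x + L • y) -
        gam F (V i) (V j) f (u l) x))) →
      ∀ l ∈ s, IntOn (gam F (V i) (V j) f (u l)) x (L * K) := by
  classical
  have hdec : ∀ f, ∃ B : Set (Fin d → ℤ), Dec B V L
      (fun x => ∑ g ∈ fib F (ker2 (V i) (V j)) f, P (x - (g - f)))
      fun l => gam F (V i) (V j) f (u l) :=
    fun f => exists_dec_fib hA h (fun g hg => (mem_fib.1 hg).1) f
  choose B hB using hdec
  choose K hK hd using fun f => exists_dichotomy (hB f)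
  refine ⟨∏ f ∈ F, K f, prod_pos fun f _ => hK f, fun f hf x s hs htot => ?_⟩
  obtain ⟨r, hr⟩ : K f ∣ ∏ f ∈ F, K f := dvd_prod_of_mem _ hf
  have hr0 : 0 < r := pos_of_mul_pos_right (hr ▸ prod_pos fun f _ => hK f) (hK f).le
  -- at most one of them is irrational
  have hone : ∀ l ∈ s, ∀ l' ∈ s, l ≠ l' → IntOn (gam F (V i) (V j) f (u l)) x (L * K f) ∨
      IntOn (gam F (V i) (V j) f (u l')) x (L * K f) := by
    intro l hl l' hl' hll
    by_contra hno
    push Not at hno
    obtain ⟨h1, h2⟩ := hno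
    obtain ⟨ha, hb⟩ := InPlane.swap (h.indep i j hij) (h.indep l l' hll) (hs l hl) (hs l' hl')
    have hker : ker2 (V l) (V l') = ker2 (V i) (V j) := Set.ext fun w =>
      ⟨fun hw => ⟨ha w hw.1 hw.2, hb w hw.1 hw.2⟩,
        fun hw => ⟨hs l hl w hw.1 hw.2, hs l' hl' w hw.1 hw.2⟩⟩
    obtain ⟨K', hK', hr'⟩ := plane_range hA h hll f
    have hi : ∀ c, ¬IntOn (gam F (V i) (V j) f (u c)) x (L * K f) →
        IrrOn (V c) (gam F (V i) (V j) f (u c)) x (L * (K f * K')) := fun c hc => by
      simpa [mul_assoc] using ((hd f c x).resolve_left hc).mono hK' 0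
    obtain ⟨y₁, y₁', g1⟩ := (hi l h1).range (hB f)
    obtain ⟨y₂, y₂', g2⟩ := (hi l' h2).range (hB f)
    have := hr' x (K f • y₁) (K f • y₁') (K f • y₂) (K f • y₂')
    simp only [hker, sum_sub_distrib, smul_smul, show L * K' * K f = L * (K f * K') by ring] at this
    simp only [gam] at g1 g2
    linarith
  intro l hl
  suffices hI : IntOn (gam F (V i) (V j) f (u l)) x (L * K f) by
    rw [hr, ← mul_assoc]
    simpa using hI.mono r 0
  by_contra hl'
  refine hl' fun y => ?_
  have h1 := htot (K f • y)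
  simp only [smul_smul] at h1
  rw [← add_sum_erase s _ hl] at h1
  convert h1.sub (isI_sum fun c hc => ((hone l hl c (mem_of_mem_erase hc)
    (ne_of_mem_erase hc).symm).resolve_left hl') y) using 1
  ring

/-- No piece of a recurrent tiling has an irrational class. -/
theorem no_irr {F : Finset (Fin d → ℤ)} (hF : MaskCond F) (hA : Tiles A F) (hR : Recurs A)
    (h : Dec A V L P u) (hf : Fine V L u) (i : Fin m) (x : Fin d → ℤ) : IntOn (u i) x L := by
  classical
  by_contra hi
  obtain ⟨j, hji, hj⟩ := hf.exists_other h hi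
  have hij : i ≠ j := hji.symm
  -- a dilation of the tile with non-vanishing masks modulo the level
  obtain ⟨t, ht, htn, hmask⟩ := exists_scale_mask hF (h.indep i j hij)
    (Int.natAbs_pos.2 h.pos.ne' : 0 < L.natAbs)
  replace hA := tiles_scale hA t ht htn
  clear hF
  generalize scale t F = G at hA hmask
  clear! F
  rename' G => F
  set Pl := univ.filter fun l => InPlane (V i) (V j) (V l) with hPl
  obtain ⟨K₀, G, hK₀, -, hvar, -, hself⟩ := exists_planeMean h hij
  obtain ⟨K₁, hK₁, hgam⟩ := exists_gam_int hA (h.mono hK₀) hij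
  set L₀ := L * K₀ with hL₀
  set L' := L₀ * K₁ with hL'
  have hL'0 : 0 < L' := mul_pos (mul_pos h.pos hK₀) hK₁
  have hflat : ∀ z w, Flat V u L i j (z + L' • w) ↔ Flat V u L i j z := fun z w => by
    rw [show L' • w = L • ((K₀ * K₁) • w) by rw [smul_smul, hL', hL₀, mul_assoc], flat_shift]
  -- the variation of the piece on flat classes
  let φ : (Fin d → ℤ) → (Fin d → ℤ) → ℝ := fun y z =>
    if Flat V u L i j z then u i (z + L' • y) - u i z else 0
  have hsum : ∀ f ∈ F, ∀ z y, IsI (∑ g ∈ fib F (ker2 (V i) (V j)) f, φ y (z - (g - f))) := by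
    intro f hfF z y
    set p := fib F (ker2 (V i) (V j)) f with hp
    by_cases hex : ∃ g ∈ p, Flat V u L i j (z - (g - f))
    swap
    · push Not at hex
      refine isI_sum fun g hg => ?_
      simp only [φ, if_neg (hex g hg)]
      exact Rows.isI_zero
    obtain ⟨g₀, hg₀, hflat₀⟩ := hex
    -- classes next to a flat one have only integral pieces in the plane
    have hnf : ∀ g ∈ p, ¬Flat V u L i j (z - (g - f)) → ∀ l ∈ Pl, IntOn (u l) (z - (g - f)) L := by
      intro g hg hng l hl
      by_contra hl'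
      have hgg : g₀ ≠ g := fun e => hng (e ▸ hflat₀)
      refine hf.no_single h hR hij (fun q => ?_) hflat₀ hl' (mem_filter.1 hl).2 fun c hc hc' => ?_
      · have := ind_add_le hA (mem_fib.1 hg₀).1 (mem_fib.1 hg).1 hgg (q + z + f)
        rwa [show q + z + f - g₀ = q + (z - (g₀ - f)) by abel,
          show q + z + f - g = q + (z - (g - f)) by abel] at this
      · by_contra hne
        refine hng ⟨⟨l, hl'⟩, fun c' hc'' w h1 h2 => ?_⟩
        exact hf.coplanar h hc' hl' hc'' hne w (hc w h1 h2) ((mem_filter.1 hl).2 w h1 h2)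
    have hG : ∀ g ∈ p, ∀ q, IsI (∑ l ∈ Pl,
        (u l (z - (g - f) + L₀ • q) - u l (z - (g - f)))) := by
      intro g hg q
      by_cases hfl : Flat V u L i j (z - (g - f))
      · have e := hvar (z - (g - f)) q
        have h2 : Flat V u L i j (z - (g - f) + L₀ • q) := by
          rw [hL₀, mul_smul, flat_shift]; exact hfl
        rw [hself _ fun w hw => hf.flat_inv h h2 hw,
          hself _ fun w hw => hf.flat_inv h hfl hw] at e
        rw [hPl, hL₀, ← e]
        exact (isI_ind A _).sub (isI_ind A _)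
      · refine isI_sum fun l hl => ?_
        rw [hL₀, mul_smul]
        exact hnf g hg hfl l hl _
    have htot : ∀ q, IsI (∑ l ∈ Pl, (gam F (V i) (V j) f (u l) (z + L₀ • q) -
        gam F (V i) (V j) f (u l) z)) := fun q => by
      simp only [gam, ← sum_sub_distrib]
      rw [sum_comm]
      refine isI_sum fun g hg => ?_
      simp only [add_sub_right_comm]
      exact hG g hg q
    have hiPl : i ∈ Pl := mem_filter.2 ⟨mem_univ _, fun w h1 _ => h1⟩
    have h1 := hgam f hfF z Pl (fun l hl => (mem_filter.1 hl).2) htot i hiPl y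
    have h2 : IsI (∑ g ∈ p, ((u i (z - (g - f) + L' • y) - u i (z - (g - f))) -
        φ y (z - (g - f)))) := isI_sum fun g hg => by
      by_cases hfl : Flat V u L i j (z - (g - f))
      · simp only [φ, if_pos hfl, sub_self]; exact Rows.isI_zero
      · simp only [φ, if_neg hfl, sub_zero]
        rw [show L' • y = L • ((K₀ * K₁) • y) by rw [smul_smul, hL', hL₀, mul_assoc]]
        exact hnf g hg hfl i hiPl _
    convert h1.sub h2 using 1
    simp only [gam, hp, sum_sub_distrib, add_sub_right_comm, hL']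
    ring
  obtain ⟨s, c, hc⟩ := exists_invert F (kerGroup (V i) (V j)) (fun k w hk hw => by
      rw [mem_kerGroup] at hw ⊢
      obtain ⟨h1, h2⟩ := hw
      rw [dot_smul] at h1 h2
      exact ⟨(mul_eq_zero.1 h1).resolve_left hk, (mul_eq_zero.1 h2).resolve_left hk⟩)
    (Int.natAbs_pos.2 h.pos.ne' : 0 < L.natAbs) (fun r => by rw [coe_kerGroup]; exact hmask r)
  set D : ℤ := ∏ q ∈ F ×ˢ s, ((c q.1 q.2).den : ℤ) with hD
  have hD0 : D ≠ 0 := prod_ne_zero_iff.2 fun q _ => by exact_mod_cast (c q.1 q.2).den_nz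
  have hφ : ∀ y z, IsI ((D : ℝ) * φ y z) := by
    intro y z
    rw [hc (φ y) (fun w hw q => ?_) z, mul_sum]
    · refine isI_sum fun f hfF => ?_
      rw [mul_sum]
      refine isI_sum fun y' hy' => ?_
      rw [← mul_assoc, coe_kerGroup]
      obtain ⟨r, hr⟩ : ((c f y').den : ℤ) ∣ D :=
        dvd_prod_of_mem (fun q : (Fin d → ℤ) × (Fin d → ℤ) => ((c q.1 q.2).den : ℤ))
          (mem_product.2 ⟨hfF, hy'⟩ : (f, y') ∈ F ×ˢ s)
      have hDc : (D : ℝ) * (c f y' : ℝ) = ((r * (c f y').num : ℤ) : ℝ) := by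
        rw [hr, Rat.cast_def]
        have : ((c f y').den : ℝ) ≠ 0 := by exact_mod_cast (c f y').den_nz
        push_cast
        field_simp
      rw [hDc]
      exact isI_int_mul _ (hsum f hfF _ y)
    · rw [Int.natAbs_of_nonneg h.pos.le]
      rw [mem_kerGroup] at hw
      have hinv : ∀ q, u i (q + L • w) = u i q := fun q => h.inv i w hw.1 q
      simp only [φ, flat_shift, add_right_comm q (L • w), hinv]
  have hflat₀ : Flat V u L i j x := ⟨⟨i, hi⟩, fun l hl => hf.coplanar h hi hj hl hij⟩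
  have hirr := (hf.irr hi).mono (mul_pos hK₀ hK₁) 0
  rw [smul_zero, add_zero, ← mul_assoc] at hirr
  refine hirr.not_int (h.ne i) hD0 fun y => ?_
  have := hφ y x
  simp only [φ, if_pos hflat₀, mul_sub] at this
  exact this

end Vale.Agent.P043.Space.Masks
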