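import Mathlib
import Vale.Agent.P043.Space.Masks.Defs

/-!
Helper for P043: a tiling in a minimal closed translation-invariant set of tilings recurs with
bounded gaps along every lattice `L • ℤ^d`.
-/

namespace Vale.Agent.P043.Space.Masks

open Set

variable {d : ℕ}

/-- Translation of a configuration. -/
private def shift (v : Fin d → ℤ) (ω : (Fin d → ℤ) → Bool) : (Fin d → ℤ) → Bool := fun x => ω (x + v)

private theorem continuous_shift (v : Fin d → ℤ) : Continuous (shift v) :=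
  continuous_pi fun x => continuous_apply (x + v)

private theorem shift_shift (u v : Fin d → ℤ) (ω : (Fin d → ℤ) → Bool) :
    shift u (shift v ω) = shift (u + v) ω := funext fun x => by simp [shift, add_assoc]

/-- Nonempty closed and invariant under the multiples of `L`. -/
private def Good (L : ℤ) (Y : Set ((Fin d → ℤ) → Bool)) : Prop :=
  IsClosed Y ∧ Y.Nonempty ∧ ∀ ω ∈ Y, ∀ t, shift (L • t) ω ∈ Y

private theorem exists_min {L : ℤ} {Y : Set ((Fin d → ℤ) → Bool)} (hY : Good L Y) :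
    ∃ M ⊆ Y, Good L M ∧ ∀ M' ⊆ M, Good L M' → M' = M := by
  obtain ⟨M, hMY, hM⟩ := zorn_superset_nonempty {Z | Good L Z} (fun c hc hchain hne => by
    have := hne.to_subtype
    refine ⟨⋂₀ c, ⟨isClosed_sInter fun s hs => (hc hs).1,
      IsCompact.nonempty_sInter_of_directed_nonempty_isCompact_isClosed
        (fun a ha b hb => (hchain.total ha hb).elim (fun h => ⟨a, ha, subset_rfl, h⟩)
          fun h => ⟨b, hb, h, subset_rfl⟩)
        (fun s hs => (hc hs).2.1) (fun s hs => (hc hs).1.isCompact) (fun s hs => (hc hs).1),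
      fun ω hω t => mem_sInter.2 fun s hs => (hc hs).2.2 ω (hω s hs) t⟩,
      fun s hs => sInter_subset_of_mem hs⟩) Y hY
  exact ⟨M, hMY, hM.prop, fun M' hsub hM' => subset_antisymm hsub (hM.le_of_le hM' hsub)⟩

private theorem recur_of_min {L : ℤ} {M : Set ((Fin d → ℤ) → Bool)} (hM : Good L M)
    (hmin : ∀ M' ⊆ M, Good L M' → M' = M) {μ : (Fin d → ℤ) → Bool} (hμ : μ ∈ M) (x : Fin d → ℤ)
    (W : Finset (Fin d → ℤ)) :
    ∃ R : ℤ, ∀ y, ∃ t, (∀ k, |t k| ≤ R) ∧ ∀ w ∈ W, μ (x + L • (y + t) + w) = μ (x + w) := by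
  classical
  let U : (Fin d → ℤ) → Set ((Fin d → ℤ) → Bool) := fun t =>
    ⋂ w ∈ W, {η | η (x + L • t + w) = μ (x + w)}
  have hUo : ∀ t, IsOpen (U t) := fun t =>
    isOpen_biInter_finset fun w _ => by
      convert (continuous_apply (A := fun _ => Bool) (x + L • t + w)).isOpen_preimage _
        (isOpen_discrete {μ (x + w)}) using 1
      ext; simp
  have hμU : μ ∈ U 0 := by simp [U]
  have hcov : M ⊆ ⋃ t, U t := by
    by_contra hnot
    obtain ⟨η, hη, hηU⟩ := not_subset.1 hnot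
    have hgood : Good L (M ∩ (⋃ t, U t)ᶜ) := by
      refine ⟨hM.1.inter (isOpen_iUnion hUo).isClosed_compl, ⟨η, hη, hηU⟩,
        fun ω hω s => ⟨hM.2.2 ω hω.1 s, fun hs => hω.2 ?_⟩⟩
      obtain ⟨t, ht⟩ := mem_iUnion.1 hs
      refine mem_iUnion.2 ⟨t + s, mem_iInter₂.2 fun w hw => ?_⟩
      have := mem_iInter₂.1 ht w hw
      simp only [Set.mem_ofPred_eq, shift] at this ⊢
      rw [← this, smul_add]
      congr 1
      abel
    have := hmin _ inter_subset_left hgood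
    exact (this.symm ▸ hμ : μ ∈ M ∩ (⋃ t, U t)ᶜ).2 (mem_iUnion.2 ⟨0, hμU⟩)
  obtain ⟨s, hs⟩ := hM.1.isCompact.elim_finite_subcover U hUo hcov
  refine ⟨∑ t ∈ s, ∑ k, |t k|, fun y => ?_⟩
  obtain ⟨t, hts, ht⟩ := mem_iUnion₂.1 (hs (hM.2.2 μ hμ y))
  refine ⟨t, fun k => ?_, fun w hw => ?_⟩
  · exact (Finset.single_le_sum (fun j _ => abs_nonneg (t j)) (Finset.mem_univ k)).trans
      (Finset.single_le_sum (f := fun t : Fin d → ℤ => ∑ k, |t k|)
        (fun j _ => Finset.sum_nonneg fun k _ => abs_nonneg _) hts)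
  · have := mem_iInter₂.1 ht w hw
    simp only [Set.mem_ofPred_eq, shift] at this
    rw [← this, smul_add]
    congr 1
    abel

/-- Some tiling recurs with bounded gaps along every lattice `L • ℤ^d`. -/
theorem exists_recurrent {F : Finset (Fin d → ℤ)} {A : Set (Fin d → ℤ)} (hA : Tiles A F) :
    ∃ B : Set (Fin d → ℤ), Tiles B F ∧ Recurs B := by
  classical
  let Ω : Set ((Fin d → ℤ) → Bool) := {ω | Tiles {x | ω x = true} F}
  have hΩc : IsClosed Ω := by
    have e : Ω = ⋂ x, {ω : (Fin d → ℤ) → Bool |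
        (fun u : F → Bool => ∃! f : F, u f = true) fun f => ω (x - f)} := by
      ext ω
      simp only [Ω, Tiles, Set.mem_ofPred_eq, mem_iInter]
      refine forall_congr' fun x => ⟨?_, ?_⟩
      · rintro ⟨f, ⟨hf, hfA⟩, hu⟩
        exact ⟨⟨f, hf⟩, hfA, fun g hg => Subtype.ext (hu g ⟨g.2, hg⟩)⟩
      · rintro ⟨f, hfA, hu⟩
        exact ⟨f, ⟨f.2, hfA⟩, fun g hg => congrArg Subtype.val (hu ⟨g, hg.1⟩ hg.2)⟩
    rw [e]
    refine isClosed_iInter fun x => ?_
    have hc : Continuous fun (ω : (Fin d → ℤ) → Bool) (f : F) => ω (x - (f : Fin d → ℤ)) :=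
      continuous_pi fun f => continuous_apply (A := fun _ => Bool) (x - (f : Fin d → ℤ))
    convert (isClosed_discrete {u : F → Bool | ∃! f : F, u f = true}).preimage hc using 1
    ext; simp
  have hΩ : Good 1 Ω := by
    refine ⟨hΩc, ⟨fun x => decide (x ∈ A), by simpa [Ω] using hA⟩, fun ω hω t x => ?_⟩
    obtain ⟨f, ⟨hf, hfA⟩, hu⟩ := hω (x + t)
    refine ⟨f, ⟨hf, ?_⟩, fun g hg => hu g ⟨hg.1, ?_⟩⟩
    · simpa [shift, sub_add_eq_add_sub] using hfA
    · simpa [shift, sub_add_eq_add_sub] using hg.2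
  obtain ⟨Y, hYΩ, hY, hYmin⟩ := exists_min hΩ
  obtain ⟨ω, hω⟩ := hY.2.1
  refine ⟨{x | ω x = true}, hYΩ hω, fun L hL x W => ?_⟩
  have hYt : ∀ η ∈ Y, ∀ v, shift v η ∈ Y := fun η hη v => by simpa using hY.2.2 η hη v
  obtain ⟨M, hMY, hM, hMmin⟩ := exists_min (L := L) ⟨hY.1, hY.2.1, fun η hη t => hYt η hη _⟩
  let S : Set (Fin d → ℤ) := Set.pi univ fun _ => Set.Ico 0 L
  have hS : S.Finite := Set.Finite.pi fun _ => Set.finite_Ico 0 L
  have hU : Good 1 (⋃ v ∈ S, shift v '' M) := by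
    refine ⟨hS.isClosed_biUnion fun v _ =>
        (hM.1.isCompact.image (continuous_shift v)).isClosed, ?_, ?_⟩
    · obtain ⟨μ, hμ⟩ := hM.2.1
      exact ⟨shift 0 μ, mem_biUnion (by simp [S, hL]) (mem_image_of_mem _ hμ)⟩
    · intro η hη t
      obtain ⟨v, hv, μ, hμ, rfl⟩ := mem_iUnion₂.1 hη
      refine mem_iUnion₂.2 ⟨fun k => (t k + v k) % L, fun k _ =>
        ⟨Int.emod_nonneg _ hL.ne', Int.emod_lt_of_pos _ hL⟩,
        shift (L • fun k => (t k + v k) / L) μ, hM.2.2 μ hμ _, ?_⟩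
      rw [shift_shift, shift_shift, one_smul]
      congr 1
      funext k
      simpa [smul_eq_mul] using Int.emod_add_mul_ediv (t k + v k) L
  have hUY : (⋃ v ∈ S, shift v '' M) ⊆ Y := iUnion₂_subset fun v _ =>
    image_subset_iff.2 fun μ hμ => hYt μ (hMY hμ) v
  rw [← hYmin _ hUY hU] at hω
  obtain ⟨v, -, μ, hμ, rfl⟩ := mem_iUnion₂.1 hω
  obtain ⟨R, hR⟩ := recur_of_min hM hMmin hμ (x + v) W
  refine ⟨R, fun y => ?_⟩
  obtain ⟨t, ht, hw⟩ := hR y
  refine ⟨t, ht, fun w hwW => ?_⟩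
  simp only [Set.mem_ofPred_eq, shift]
  rw [add_right_comm x w v, ← hw w hwW, add_right_comm (x + L • (y + t)) w v,
    add_right_comm x (L • (y + t)) v]

end Vale.Agent.P043.Space.Masks
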