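import Mathlib
import Vale.Agent.P043.Space.Masks.Defs
import Vale.Agent.P043.Space.Diff
import Vale.Agent.P043.Space.Periodic

/-!
Helper for P043: a tiling with at most one varying piece on every class yields a periodic tiling.
-/

namespace Vale.Agent.P043.Space.Masks

open Finset

variable {d m : ℕ}

/-- At most one varying piece on every class gives a periodic tiling. -/
theorem periodic_of_one_varying {F : Finset (Fin d → ℤ)} {A : Set (Fin d → ℤ)}
    {V : Fin m → Fin d → ℤ} {L : ℤ} {P : (Fin d → ℤ) → ℝ} {u : Fin m → (Fin d → ℤ) → ℝ}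
    (hA : Tiles A F) (h : Dec A V L P u)
    (hone : ∀ x i j, i ≠ j → ConstOn (u i) x L ∨ ConstOn (u j) x L) :
    ∃ (A' : Set (Fin d → ℤ)) (P' : ℤ), 0 < P' ∧ Tiles A' F ∧
      ∀ y w, (y + P' • w ∈ A' ↔ y ∈ A') := by
  classical
  have hmem : ∀ {y z : Fin d → ℤ}, ind A y = ind A z → (y ∈ A ↔ z ∈ A) := fun {y z} e => by
    by_cases hy : y ∈ A <;> by_cases hz : z ∈ A <;> simp [ind, hy, hz] at e ⊢
  rcases Nat.eq_zero_or_pos m with rfl | hm
  · exact ⟨A, L, h.pos, hA, fun y w => hmem (by rw [h.eq, h.eq, h.periodic w y]; simp)⟩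
  have hex : ∀ x, ∃ i₀, ∀ i, i ≠ i₀ → ConstOn (u i) x L := fun x => by
    by_cases hb : ∃ i, ¬ ConstOn (u i) x L
    · obtain ⟨i₀, h0⟩ := hb
      exact ⟨i₀, fun i hi => (hone x i i₀ hi).resolve_right h0⟩
    · exact ⟨⟨0, hm⟩, fun i _ => not_not.1 fun hi => hb ⟨i, hi⟩⟩
  choose idx hidx using hex
  let rep : (Fin d → ℤ) → Fin d → ℤ := fun y k => y k % L
  have hrep : ∀ y w, rep (y + L • w) = rep y := fun y w => by funext k; simp [rep]
  let S : Fin m → Set (Fin d → ℤ) := fun i => {y | y ∈ A ∧ idx (rep y) = i}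
  have hS : ∀ i y w, dot (V i) w = 0 → (y + L • w ∈ S i ↔ y ∈ S i) := by
    intro i y w hw
    simp only [S, Set.mem_ofPred_eq, hrep]
    refine and_congr_left fun hi => hmem ?_
    have hy : y = rep y + L • fun k => y k / L := by
      funext k; simp [rep, Int.emod_add_mul_ediv]
    rw [h.eq, h.eq, h.periodic w y]
    refine congrArg (P y + ·) (sum_congr rfl fun l _ => ?_)
    rcases eq_or_ne l i with rfl | hl
    · exact h.inv l w hw y
    · rw [hy, add_assoc, ← smul_add, hidx (rep y) l (hi ▸ hl), hidx (rep y) l (hi ▸ hl)]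
  have hsplit : ∀ y, ∑ i, ind (S i) y = ind A y := fun y => by
    rw [sum_eq_single (idx (rep y))]
    · exact ind_congr ⟨fun hy => hy.1, fun hy => ⟨hy, rfl⟩⟩
    · exact fun i _ hi => ind_of_notMem fun hy => hi hy.2.symm
    · simp
  have htile : ∀ x, ∑ i, cnt (S i) F x = 1 := fun x => by
    have := (eqn_ind hA).2 0 x
    simp only [cnt]
    rw [sum_comm, sum_congr rfl fun f _ => hsplit (x - f)]
    simpa using this
  have hper : ∀ i, ∃ M : ℤ, 0 < M ∧ ∀ w, M • w ∈ per (cnt (S i) F) := by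
    intro i
    obtain ⟨τ, hτ, hst⟩ := exists_steps i (h.ne i) fun l hl => (h.indep l i hl).exists_perp
    obtain ⟨steps, hτs, hcong, hkill⟩ := hst L
    have hinv : ∀ l w, dot (V l) w = 0 → L • w ∈ per (cnt (S l) F) := fun l w hw =>
      cnt_inv fun y => hS l y w hw
    refine ⟨L * L * dot (V i) τ, mul_pos (mul_pos h.pos h.pos) hτ,
      mem_per_of_hyperplane (hinv i) fun x => ?_⟩
    have hl : ∀ g ∈ steps, g - L • τ ∈ per (cnt (S i) F) := fun g hg => by
      obtain ⟨w, hw, e⟩ := hcong g hg; rw [e]; exact hinv i w hw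
    have hzero : ∀ y, Dl steps (cnt (S i) F) y = 0 := fun y => by
      rw [← Dl_others (f := fun l => cnt (S l) F) i (fun l hl => ?_) y,
        show (fun z => ∑ l, cnt (S l) F z) = fun _ => 1 from funext htile]
      · exact Dl_eq_zero hτs (fun _ => rfl) y
      · obtain ⟨g, hg, w, hw, e⟩ := hkill l hl
        exact ⟨g, hg, e ▸ hinv l w hw⟩
    obtain ⟨n, hn⟩ : ∃ n, steps.length = n + 1 :=
      ⟨steps.length - 1, by have := List.length_pos_of_mem hτs; omega⟩
    have hbd : ∀ k : ℤ, |cnt (S i) F (x + k • L • τ)| ≤ F.card := fun k => by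
      have h1 : ∀ f ∈ F, |ind (S i) (x + k • L • τ - f)| ≤ (1 : ℝ) := fun f _ => by
        obtain ⟨h1, h2⟩ := ind_mem_Icc (S i) (x + k • L • τ - f)
        rw [abs_le]; exact ⟨by linarith, h2⟩
      refine (abs_sum_le_sum_abs _ _).trans ((sum_le_sum h1).trans ?_)
      simp
    have := Rows.const_of_bounded n (fun k : ℤ => cnt (S i) F (x + k • L • τ)) F.card 0 hbd
      (fun k _ => by rw [← hn, ← Dl_line hl x k]; exact hzero _) 0 le_rfl
    simpa using this
  choose M hM hMper using hper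
  choose S' e he hev hcnt using fun i =>
    exists_periodic_piece (h.ne i) h.pos (S := S i) (hS i) F (hM i) (hMper i)
  refine ⟨{y | ∃ i, y ∈ S' i}, ∏ i, e i, Finset.prod_pos fun i _ => he i, fun x => ?_,
    fun y w => ?_⟩
  · have hx : ∑ p ∈ (univ : Finset (Fin m)) ×ˢ F, ind (S' p.1) (x - p.2) = 1 := by
      rw [sum_product, ← htile x]
      exact sum_congr rfl fun i _ => hcnt i x
    obtain ⟨p, hp, hpS⟩ : ∃ p ∈ (univ : Finset (Fin m)) ×ˢ F, x - p.2 ∈ S' p.1 := by
      by_contra hno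
      rw [sum_eq_zero fun p hp => ind_of_notMem fun hm => hno ⟨p, hp, hm⟩] at hx
      exact zero_ne_one hx
    refine ⟨p.2, ⟨(mem_product.1 hp).2, p.1, hpS⟩, ?_⟩
    rintro f ⟨hf, i, hi⟩
    by_contra hne
    have hsub : ({(i, f), p} : Finset (Fin m × (Fin d → ℤ))) ⊆ univ ×ˢ F := by
      simp [insert_subset_iff, hf, (mem_product.1 hp).2]
    have := sum_le_sum_of_subset_of_nonneg (f := fun p => ind (S' p.1) (x - p.2)) hsub
      fun p _ _ => (ind_mem_Icc _ _).1
    rw [sum_pair (fun h => hne (congrArg Prod.snd h)), hx, ind_of_mem hi, ind_of_mem hpS] at this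
    norm_num at this
  · refine exists_congr fun i => ?_
    obtain ⟨k, hk⟩ : e i ∣ ∏ i, e i := dvd_prod_of_mem _ (mem_univ i)
    rw [hk, mul_smul]
    exact hev i _ _

end Vale.Agent.P043.Space.Masks
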