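import Mathlib
import Vale.Agent.P043.Adapted.Average
import Vale.Agent.P043.Space.Masks.Average
import Vale.Agent.P043.Space.Dirs
import Vale.Agent.P043.Space.Masks.Invert
import Vale.Agent.P043.Space.Masks.Dilate

/-!
Helper for P043: under the mask condition a tiling is a periodic function plus pieces constant
along hyperplanes with pairwise independent normals.
-/

namespace Vale.Agent.P043.Space.Masks

open Finset

variable {d : ℕ}

/-- The integer vectors in the rational span of the periods. -/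
def perLat (φ : (Fin d → ℤ) → ℝ) : AddSubgroup (Fin d → ℤ) where
  carrier := {w | toQ w ∈ perQ φ}
  zero_mem' := by
    show toQ (0 : Fin d → ℤ) ∈ perQ φ
    rw [show toQ (0 : Fin d → ℤ) = 0 by funext k; simp [toQ]]
    exact zero_mem _
  add_mem' := fun {a b} ha hb => by
    show toQ (a + b) ∈ perQ φ
    rw [show toQ (a + b) = toQ a + toQ b by funext k; simp [toQ]]
    exact add_mem ha hb
  neg_mem' := fun {a} ha => by
    show toQ (-a) ∈ perQ φ
    rw [show toQ (-a) = -toQ a by funext k; simp [toQ]]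
    exact neg_mem ha

/-- A periodic function plus pieces constant along hyperplanes. -/
def Mix (φ : (Fin d → ℤ) → ℝ) : Prop :=
  ∃ (m : ℕ) (V : Fin m → Fin d → ℤ) (L : ℤ) (P : (Fin d → ℤ) → ℝ)
    (u : Fin m → (Fin d → ℤ) → ℝ), (∀ i, V i ≠ 0) ∧ 0 < L ∧ (∀ w, L • w ∈ per P) ∧
    (∀ i w, dot (V i) w = 0 → L • w ∈ per (u i)) ∧ (∀ x, φ x = P x + ∑ i, u i x) ∧
    ∀ i, Bdd (u i)

theorem mix_const (a : ℝ) : Mix (d := d) fun _ => a :=
  ⟨0, Fin.elim0, 1, fun _ => a, Fin.elim0, fun i => i.elim0, one_pos, fun _ _ => rfl,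
    fun i => i.elim0, fun x => by simp, fun i => i.elim0⟩

theorem Mix.congr {φ ψ : (Fin d → ℤ) → ℝ} (h : Mix φ) (e : ∀ x, φ x = ψ x) : Mix ψ := by
  rwa [← funext e]

theorem Mix.smul {φ : (Fin d → ℤ) → ℝ} (h : Mix φ) (a : ℝ) : Mix fun x => a * φ x := by
  obtain ⟨m, V, L, P, u, hV, hL, hP, hu, e, hB⟩ := h
  refine ⟨m, V, L, fun x => a * P x, fun i x => a * u i x, hV, hL,
    fun w x => congrArg (a * ·) (hP w x), fun i w hw x => congrArg (a * ·) (hu i w hw x),
    fun x => by simp only [e, mul_add, mul_sum], fun i => ?_⟩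
  obtain ⟨B, hb⟩ := hB i
  exact ⟨|a| * B, fun x => by rw [abs_mul]; exact mul_le_mul_of_nonneg_left (hb x) (abs_nonneg a)⟩

theorem Mix.shift {φ : (Fin d → ℤ) → ℝ} (h : Mix φ) (y : Fin d → ℤ) :
    Mix fun x => φ (x - y) := by
  obtain ⟨m, V, L, P, u, hV, hL, hP, hu, e, hB⟩ := h
  refine ⟨m, V, L, fun x => P (x - y), fun i x => u i (x - y), hV, hL,
    fun w x => ?_, fun i w hw x => ?_, fun x => e _, fun i => (hB i).elim fun B hb => ⟨B, fun x => hb _⟩⟩
  · simp only [add_sub_right_comm]; exact hP w _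
  · simp only [add_sub_right_comm]; exact hu i w hw _

theorem Mix.add {φ ψ : (Fin d → ℤ) → ℝ} (h : Mix φ) (h' : Mix ψ) :
    Mix fun x => φ x + ψ x := by
  obtain ⟨m, V, L, P, u, hV, hL, hP, hu, e, hB⟩ := h
  obtain ⟨m', V', L', P', u', hV', hL', hP', hu', e', hB'⟩ := h'
  refine ⟨m + m', Fin.append V V', L * L', fun x => P x + P' x, Fin.append u u', ?_,
    mul_pos hL hL', fun w x => ?_, ?_, fun x => ?_, ?_⟩
  · intro i
    induction i using Fin.addCases with
    | left i => simpa using hV i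
    | right i => simpa using hV' i
  · simp only
    rw [show P (x + (L * L') • w) = P x by rw [mul_smul]; exact hP _ x,
      show P' (x + (L * L') • w) = P' x by rw [mul_comm, mul_smul]; exact hP' _ x]
  · intro i
    induction i using Fin.addCases with
    | left i =>
      simp only [Fin.append_left]
      intro w hw
      rw [mul_smul]
      exact hu i _ (by rw [dot_smul, hw, mul_zero])
    | right i =>
      simp only [Fin.append_right]
      intro w hw
      rw [mul_comm, mul_smul]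
      exact hu' i _ (by rw [dot_smul, hw, mul_zero])
  · rw [Fin.sum_univ_add]
    simp only [Fin.append_left, Fin.append_right, e, e']
    ring
  · intro i
    induction i using Fin.addCases with
    | left i => simpa using hB i
    | right i => simpa using hB' i

theorem Mix.sum {α : Type*} {s : Finset α} {φ : α → (Fin d → ℤ) → ℝ}
    (h : ∀ a ∈ s, Mix (φ a)) : Mix fun x => ∑ a ∈ s, φ a x := by
  induction s using Finset.cons_induction with
  | empty => simpa using mix_const (d := d) 0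
  | cons a s ha ih =>
    simp only [sum_cons]
    exact (h a (mem_cons_self a s)).add (ih fun b hb => h b (mem_cons_of_mem hb))

/-- A non-vanishing mask of a union of fibres gives one of a fibre. -/
theorem exists_fine {F : Finset (Fin d → ℤ)} {Λ : AddSubgroup (Fin d → ℤ)} {a b : Fin d → ℤ}
    (hle : ∀ w ∈ Λ, w ∈ ker2 a b) {θ : (Fin d → ℤ) → ℂ} {f : Fin d → ℤ}
    (hf : ∑ g ∈ fib F (ker2 a b) f, θ g ≠ 0) : ∃ h ∈ F, ∑ g ∈ fib F Λ h, θ g ≠ 0 := by
  classical
  by_contra hno
  push Not at hno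
  apply hf
  have hkey : ∀ g h, g - h ∈ Λ → fib F Λ g = fib F Λ h := fun g h e => by
    ext k
    simp only [mem_fib, SetLike.mem_coe]
    refine and_congr_right fun _ => ?_
    rw [← sub_add_sub_cancel k g h]
    exact (Λ.add_mem_cancel_right e).symm
  rw [← sum_fiberwise_of_maps_to (g := fun g => fib F Λ g)
    (t := (fib F (ker2 a b) f).image fun g => fib F Λ g) fun g hg => mem_image_of_mem _ hg]
  refine sum_eq_zero fun s hs => ?_
  obtain ⟨h, hh, rfl⟩ := mem_image.1 hs
  refine (sum_congr ?_ fun _ _ => rfl).trans (hno h (mem_fib.1 hh).1)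
  ext g
  rw [mem_filter]
  constructor
  · rintro ⟨hg, e⟩
    have : g ∈ fib F Λ g := mem_fib.2 ⟨(mem_fib.1 hg).1, by simp⟩
    rwa [e] at this
  · intro hg
    obtain ⟨hgF, hgh⟩ := mem_fib.1 hg
    have h1 : g - h ∈ ker2 a b := hle _ hgh
    have h2 := (mem_fib.1 hh).2
    refine ⟨mem_fib.2 ⟨hgF, ?_, ?_⟩, hkey g h hgh⟩
    · rw [← sub_add_sub_cancel g h f, map_add, h1.1, h2.1, add_zero]
    · rw [← sub_add_sub_cancel g h f, map_add, h1.2, h2.2, add_zero]

/-- The equations of all dilations prime to the size. -/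
def EqnAll (F : Finset (Fin d → ℤ)) (φ : (Fin d → ℤ) → ℝ) : Prop :=
  ∀ s : ℕ, 0 < s → Nat.Coprime s F.card → Eqn (scale s F) φ

theorem eqnAll_ind {A : Set (Fin d → ℤ)} {F : Finset (Fin d → ℤ)} (hA : Tiles A F) :
    EqnAll F (ind A) := fun s hs hsn => eqn_ind (tiles_scale hA s hs hsn)

theorem EqnAll.eqn {F : Finset (Fin d → ℤ)} {φ : (Fin d → ℤ) → ℝ} (h : EqnAll F φ) :
    Eqn F φ := by
  simpa [scale] using h 1 one_pos (Nat.coprime_one_left _)

/-- The recursion over the rank of the periods. -/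
theorem mix_of_eqn {F : Finset (Fin d → ℤ)} (hF : MaskCond F) :
    ∀ (n : ℕ) (φ : (Fin d → ℤ) → ℝ), EqnAll F φ → d ≤ Module.finrank ℚ (perQ φ) + n → Mix φ := by
  classical
  intro n
  induction n using Nat.strong_induction_on with
  | _ n ih => ?_
  intro φ hφ hn
  obtain ⟨N, hN, hper⟩ := Adapted.exists_scale φ
  by_cases htop : ∀ w, toQ w ∈ perQ φ
  · exact ⟨0, Fin.elim0, N, φ, Fin.elim0, fun i => i.elim0, by exact_mod_cast hN,
      fun w => hper w (htop w), fun i => i.elim0, fun x => by simp, fun i => i.elim0⟩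
  push Not at htop
  obtain ⟨w₀, hw₀⟩ := htop
  obtain ⟨v, hvp, hvw⟩ := exists_normal hw₀
  have hv : v ≠ 0 := fun e => hvw (by simp [e, dot_apply])
  by_cases hker : ∀ w, dot v w = 0 → toQ w ∈ perQ φ
  · exact ⟨1, fun _ => v, N, fun _ => 0, fun _ => φ, fun _ => hv, by exact_mod_cast hN,
      fun _ _ => rfl, fun _ w hw => hper w (hker w hw), fun x => by simp, fun _ => bdd_of_eqn hφ.eqn⟩
  push Not at hker
  obtain ⟨w, hw, hwnot⟩ := hker
  obtain ⟨v', hv'p, hv'w⟩ := exists_normal hwnot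
  have hvv : Indep v v' := by
    by_contra h
    obtain ⟨a, b, ha, hab⟩ := exists_smul_eq hv h
    have := congrArg (fun z => dot z w) hab
    have h1 : a * dot v' w = b * dot v w := by
      simpa [dot_apply, mul_assoc, ← mul_sum] using this
    rw [hw, mul_zero] at h1
    exact mul_ne_zero ha hv'w h1
  set Λ := perLat φ with hΛ
  have hle : ∀ z ∈ Λ, z ∈ ker2 v v' := fun z hz => by
    obtain ⟨c, hc, hcz⟩ := exists_multiple (show toQ z ∈ perQ φ from hz)
    have h1 := hvp _ hcz
    have h2 := hv'p _ hcz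
    rw [dot_smul] at h1 h2
    exact ⟨(mul_eq_zero.1 h1).resolve_left hc, (mul_eq_zero.1 h2).resolve_left hc⟩
  have hsat : ∀ (k : ℤ) z, k ≠ 0 → k • z ∈ Λ → z ∈ Λ := fun k z hk hz => by
    have h1 : toQ (k • z) ∈ perQ φ := hz
    rw [toQ_smul, Submodule.smul_mem_iff] at h1
    · exact h1
    · exact_mod_cast hk
  obtain ⟨t, ht, htn, hmask⟩ := exists_scale_mask hF hvv hN
  have hφt : Eqn (scale t F) φ := hφ t ht htn
  obtain ⟨s, c, hc⟩ := exists_invert (scale t F) Λ hsat hN (fun r => by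
    obtain ⟨f, hf, hne⟩ := hmask r
    exact exists_fine hle hne)
  refine Mix.congr ?_ fun x => (hc φ (fun z hz => hper z hz) x).symm
  refine Mix.sum fun f _ => Mix.sum fun y _ => ?_
  obtain ⟨ψ, hψ, hψg, hψle, hsum⟩ :=
    exists_average_fib hφt (Λ : Set (Fin d → ℤ)) hN (fun z hz => hper z hz) f
  have hgood : ∀ g ∈ scale t F \ fib (scale t F) Λ f, Mix (ψ g) := by
    intro g hg
    obtain ⟨hgF, hgn⟩ := mem_sdiff.1 hg
    have hlt : perQ φ < perQ (ψ g) := by
      refine lt_of_le_of_ne (Submodule.span_mono (Set.image_mono (hψle g))) ?_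
      intro e
      have hmem : toQ ((step (scale t F) * N) • (g - f)) ∈ perQ φ :=
        e ▸ Submodule.subset_span ⟨_, hψg g, rfl⟩
      refine hgn (mem_fib.2 ⟨hgF, hsat (step (scale t F) * N) _ ?_ hmem⟩)
      simp [step, Nat.factorial_ne_zero, hN.ne']
    have h1 := Submodule.finrank_lt_finrank_of_lt hlt
    have h2 : Module.finrank ℚ (perQ (ψ g)) ≤ d := by
      simpa using Submodule.finrank_le (perQ (ψ g))
    exact ih (n - 1) (by omega) _ (fun s' hs' hsn' => hψ _ (hφ s' hs' hsn') g) (by omega)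
  have hS : Mix fun x => 1 + (-1) * ∑ g ∈ scale t F \ fib (scale t F) Λ f, ψ g x :=
    (mix_const 1).add ((Mix.sum hgood).smul (-1))
  refine ((hS.shift y).smul (c f y : ℝ)).congr fun x => ?_
  rw [hsum (x - y)]; ring

/-- Parallel pieces are merged. -/
theorem dec_of_mix {A : Set (Fin d → ℤ)} :
    ∀ (m : ℕ) (V : Fin m → Fin d → ℤ) (L : ℤ) (P : (Fin d → ℤ) → ℝ)
      (u : Fin m → (Fin d → ℤ) → ℝ), (∀ i, V i ≠ 0) → 0 < L → (∀ w, L • w ∈ per P) →
      (∀ i w, dot (V i) w = 0 → L • w ∈ per (u i)) → (∀ x, ind A x = P x + ∑ i, u i x) →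
      (∀ i, Bdd (u i)) →
      ∃ (m : ℕ) (V : Fin m → Fin d → ℤ) (L : ℤ) (P : (Fin d → ℤ) → ℝ)
        (u : Fin m → (Fin d → ℤ) → ℝ), Dec A V L P u := by
  classical
  intro m
  induction m with
  | zero => exact fun V L P u hV hL hP hu e hB =>
      ⟨0, V, L, P, u, hV, fun i => i.elim0, hL, hP, hu, e, hB⟩
  | succ m ih =>
    intro V L P u hV hL hP hu e hB
    by_cases hind : ∀ i j, i ≠ j → Indep (V i) (V j)
    · exact ⟨_, V, L, P, u, hV, hind, hL, hP, hu, e, hB⟩
    push Not at hind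
    obtain ⟨i, j, hij, hdep⟩ := hind
    obtain ⟨a, b, ha, hab⟩ := exists_smul_eq (hV i) hdep
    have hker : ∀ w, dot (V i) w = 0 → dot (V j) w = 0 := fun w hw => by
      have := congrArg (fun z => dot z w) hab
      have h1 : a * dot (V j) w = b * dot (V i) w := by
        simpa [dot_apply, mul_assoc, ← mul_sum] using this
      rw [hw, mul_zero] at h1
      exact (mul_eq_zero.1 h1).resolve_left ha
    refine ih (fun k => V (j.succAbove k)) L P
      (fun k x => u (j.succAbove k) x + if j.succAbove k = i then u j x else 0)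
      (fun k => hV _) hL hP (fun k w hw x => ?_) (fun x => ?_) fun k => ?_
    · simp only
      rw [hu _ w hw x]
      split_ifs with h
      · rw [hu j w (hker w (h ▸ hw)) x]
      · rfl
    · rw [e x, Fin.sum_univ_succAbove _ j, sum_add_distrib]
      obtain ⟨i', hi'⟩ := Fin.exists_succAbove_eq hij
      rw [sum_eq_single i' (fun k _ hk => if_neg fun h => hk (Fin.succAbove_right_injective
        (h.trans hi'.symm))) (by simp), if_pos hi']
      ring
    · refine (hB _).add ?_
      split_ifs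
      · exact hB j
      · exact bdd_const 0

/-- Decomposition of a tiling. -/
theorem exists_dec {F : Finset (Fin d → ℤ)} (hF : MaskCond F) {A : Set (Fin d → ℤ)}
    (hA : Tiles A F) :
    ∃ (m : ℕ) (V : Fin m → Fin d → ℤ) (L : ℤ) (P : (Fin d → ℤ) → ℝ)
      (u : Fin m → (Fin d → ℤ) → ℝ), Dec A V L P u := by
  obtain ⟨m, V, L, P, u, hV, hL, hP, hu, e, hB⟩ := mix_of_eqn hF d (ind A) (eqnAll_ind hA) (by omega)
  exact dec_of_mix m V L P u hV hL hP hu e hB

end Vale.Agent.P043.Space.Masks
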