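import Mathlib
import Vale.Agent.P043.Space.Masks.Kill
import Vale.Agent.P043.Space.Masks.Split
import Vale.Agent.P043.Space.Masks.Minimal
import Vale.Agent.P043.Space.Masks.Periodise
import Vale.Agent.P043.Space.Masks.Dir3
import Vale.Agent.P043.Space.Six

/-!
Helper for P043: tiles with the fibre-mask condition have periodic tilings; six-point tiles of
`ℤ^3`.
-/

namespace Vale.Agent.P043.Space.Masks

open Finset

variable {d : ℕ}

/-- A tile with the fibre-mask condition has a periodic tiling. -/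
theorem periodic_of_maskCond {F : Finset (Fin d → ℤ)} (hF : MaskCond F) {A : Set (Fin d → ℤ)}
    (hA : Tiles A F) :
    ∃ (A' : Set (Fin d → ℤ)) (P : ℤ), 0 < P ∧ Tiles A' F ∧
      ∀ y w, (y + P • w ∈ A' ↔ y ∈ A') := by
  obtain ⟨B, hB, hR⟩ := exists_recurrent hA
  obtain ⟨m, V, L, P, u, h⟩ := exists_dec hF hB
  obtain ⟨K, hK, hf⟩ := exists_fine_level h hR
  refine periodic_of_one_varying hB (h.mono hK) fun x i j hij => ?_
  by_cases hC : ConstOn (u i) x (L * K)
  · exact Or.inl hC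
  · exact Or.inr (hf.excl x i j hij (no_irr hF hB hR (h.mono hK) hf i x) hC)

/-- A number whose primes divide `n` divides a power of `n`. -/
theorem exists_dvd_pow (n : ℕ) {M : ℕ} (hM : 0 < M) (h : ∀ p : ℕ, p.Prime → p ∣ M → p ∣ n) :
    ∃ k : ℕ, M ∣ n ^ k := by
  induction M using Nat.recOnMul with
  | zero => exact absurd hM (lt_irrefl 0)
  | one => exact ⟨0, one_dvd _⟩
  | prime p hp => exact ⟨1, by simpa using h p hp dvd_rfl⟩
  | mul a b iha ihb =>
    obtain ⟨ha, hb⟩ : 0 < a ∧ 0 < b := CanonicallyOrderedAdd.mul_pos.1 hM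
    obtain ⟨i, hi⟩ := iha ha fun p hp hd => h p hp (hd.mul_right b)
    obtain ⟨j, hj⟩ := ihb hb fun p hp hd => h p hp (hd.mul_left a)
    exact ⟨i + j, by rw [pow_add]; exact mul_dvd_mul hi hj⟩

open Classical in
/-- Character sums given by roots of unity whose order divides a power of the size. -/
theorem maskCond_of_torsion {F : Finset (Fin d → ℤ)}
    (hF : ∀ a b : Fin d → ℤ, LinearIndependent ℚ ![fun k => (a k : ℚ), fun k => (b k : ℚ)] →
      ∀ z : Fin d → ℂ, (∃ m : ℕ, ∀ k, z k ^ F.card ^ m = 1) →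
        ∃ f ∈ F, ∑ g ∈ F.filter (fun g => ∑ k, a k * g k = ∑ k, a k * f k ∧
          ∑ k, b k * g k = ∑ k, b k * f k), ∏ k, z k ^ g k ≠ 0) :
    MaskCond F := by
  intro a b hab M r hM hsm
  obtain ⟨m, q, hq⟩ := exists_dvd_pow F.card hM hsm
  obtain ⟨f, hf, hne⟩ := hF a b hab (fun k => ee ((r k : ℝ) / M)) ⟨m, fun k => by
    rw [← ee_nat_mul, ee_eq_one_iff, hq]
    have : (M : ℝ) ≠ 0 := by positivity
    exact ⟨q * r k, by push_cast; field_simp⟩⟩
  refine ⟨f, hf, fun h0 => hne ?_⟩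
  rw [← h0]
  refine sum_congr ?_ fun g _ => ?_
  · ext g
    simp only [mem_fib, mem_filter, ker2, Set.mem_ofPred_eq, map_sub, sub_eq_zero]
    simp only [dot_apply]
  · have hz : ∀ k : Fin d, ee ((r k : ℝ) / M) ^ g k = ee ((g k : ℝ) * ((r k : ℝ) / M)) :=
      fun k => by
        simp only [ee, ← Complex.exp_int_mul]
        push_cast
        ring_nf
    have hs : ∀ (s : Finset (Fin d)) (t : Fin d → ℝ), ∏ k ∈ s, ee (t k) = ee (∑ k ∈ s, t k) := by
      intro s t
      induction s using Finset.induction_on with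
      | empty => simp [ee_eq_one_iff.2 Rows.isI_zero]
      | @insert k s hk ih => rw [prod_insert hk, sum_insert hk, ih, ee_add]
    simp only [hz, hs, dot_apply, Int.cast_sum, Int.cast_mul, Finset.sum_div]
    exact congrArg ee (sum_congr rfl fun k _ => by ring)

/-- Tiles of six points in `ℤ^3` have periodic tilings. -/
theorem periodic_of_six {F : Finset (Fin 3 → ℤ)} (hF : F.card = 6) {A : Set (Fin 3 → ℤ)}
    (hA : Tiles A F) :
    ∃ (A' : Set (Fin 3 → ℤ)) (P : ℤ), 0 < P ∧ Tiles A' F ∧ ∀ y w, (y + P • w ∈ A' ↔ y ∈ A') :=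
  (six_cases hF hA).elim (fun h => periodic_of_maskCond (maskCond_of_goodDirs h) hA) id

/-- A vanishing sum of roots of unity of prime power order has a number of terms divisible by the
prime. -/
theorem dvd_card_of_sum_ee {α : Type*} (t : Finset α) (e : α → ℤ) {p j : ℕ} (hp : p.Prime)
    (h : ∑ g ∈ t, ee ((e g : ℝ) / (p ^ j : ℕ)) = 0) : p ∣ t.card := by
  have := Fact.mk hp
  have hM : 0 < p ^ j := pow_pos hp.pos j
  set ζ : ℂ := Complex.exp (2 * Real.pi * Complex.I / (p ^ j : ℕ)) with hζ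
  have hprim : IsPrimitiveRoot ζ (p ^ j) := Complex.isPrimitiveRoot_exp _ hM.ne'
  have hee : ∀ g, ee ((e g : ℝ) / (p ^ j : ℕ)) = ζ ^ (e g % (p ^ j : ℕ)).toNat := fun g => by
    have h0 : 0 ≤ e g % (p ^ j : ℕ) := Int.emod_nonneg _ (by exact_mod_cast hM.ne')
    have h1 : ((e g % (p ^ j : ℕ)).toNat : ℤ) = e g % (p ^ j : ℕ) := Int.toNat_of_nonneg h0
    have hne : ((p ^ j : ℕ) : ℝ) ≠ 0 := by exact_mod_cast hM.ne'
    have : ζ = ee (1 / ((p ^ j : ℕ) : ℝ)) := by
      rw [hζ, ee]; push_cast; ring_nf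
    rw [this, ← ee_nat_mul]
    refine ee_congr ⟨e g / (p ^ j : ℕ), ?_⟩
    have h2 : (e g : ℝ) = ((p ^ j : ℕ) : ℝ) * ((e g / (p ^ j : ℕ) : ℤ) : ℝ) +
        ((e g % (p ^ j : ℕ)).toNat : ℝ) := by
      rw [show ((e g % (p ^ j : ℕ)).toNat : ℝ) = (((e g % (p ^ j : ℕ)).toNat : ℤ) : ℝ) from (Int.cast_natCast _).symm, h1]
      exact_mod_cast (Int.mul_ediv_add_emod (e g) (p ^ j : ℕ)).symm
    rw [h2]
    field_simp
    ring
  set P : Polynomial ℤ := ∑ g ∈ t, Polynomial.X ^ (e g % (p ^ j : ℕ)).toNat with hP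
  have hroot : Polynomial.aeval ζ P = 0 := by
    rw [← h, hP, map_sum]
    exact sum_congr rfl fun g _ => by rw [map_pow, Polynomial.aeval_X, hee]
  have hdvd : Polynomial.cyclotomic (p ^ j) ℤ ∣ P := by
    rw [Polynomial.cyclotomic_eq_minpoly hprim hM]
    exact minpoly.isIntegrallyClosed_dvd (hprim.isIntegral hM) hroot
  have h1 := Polynomial.eval_dvd (x := (1 : ℤ)) hdvd
  have hev : P.eval 1 = (t.card : ℤ) := by simp [hP, Polynomial.eval_finsetSum]
  rw [hev] at h1
  rcases j with _ | j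
  · simp only [pow_zero, Polynomial.cyclotomic_one, Polynomial.eval_sub, Polynomial.eval_X,
      Polynomial.eval_one, sub_self, zero_dvd_iff, Nat.cast_eq_zero] at h1
    simp [h1]
  · rw [Polynomial.eval_one_cyclotomic_prime_pow] at h1
    exact_mod_cast h1

open Classical in
/-- A tile of prime power size with a fibre of size prime to `p` under every map to `ℤ²`. -/
theorem maskCond_of_prime_pow {F : Finset (Fin d → ℤ)} {p k : ℕ} (hp : p.Prime)
    (hk : F.card = p ^ k)
    (hF : ∀ a b : Fin d → ℤ, LinearIndependent ℚ ![fun i => (a i : ℚ), fun i => (b i : ℚ)] →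
      ∃ f ∈ F, ¬p ∣ (F.filter fun g => ∑ i, a i * g i = ∑ i, a i * f i ∧
          ∑ i, b i * g i = ∑ i, b i * f i).card) :
    MaskCond F := by
  intro a b hab M r hM hsm
  obtain ⟨f, hf, hne⟩ := hF a b hab
  refine ⟨f, hf, fun h0 => hne ?_⟩
  obtain ⟨m, hm⟩ := exists_dvd_pow F.card hM hsm
  rw [hk, ← pow_mul, Nat.dvd_prime_pow hp] at hm
  obtain ⟨j, -, rfl⟩ := hm
  have := dvd_card_of_sum_ee (fib F (ker2 a b) f) (fun g => dot r g) hp h0
  convert this using 2
  ext g
  simp only [mem_fib, mem_filter, ker2, Set.mem_ofPred_eq, map_sub, sub_eq_zero]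
  simp only [dot_apply]

end Vale.Agent.P043.Space.Masks
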